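import Vale.Agent.P236G.Sp

/-!
# P236, block ORD: diagonal maps of the two-skeleton and the comparison of cones
-/

open CategoryTheory MonoidalCategory Limits OnePoint Set Filter Real Topology
open Vale.Agent.P251 Vale.Agent.P251.G Vale.Agent.P251.G.LC Vale.Agent.P251.Q Vale.Agent.P251.I
open Vale.Agent.P236Z.Cat Vale.Agent.P236Z.Cat.Gs

noncomputable section

namespace Vale.Agent.P236G

/-- the exchange of the last two factors -/
def sw (A B X : LC) : (A ⊗ B) ⊗ X ≅ (A ⊗ X) ⊗ B :=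
  α_ A B X ≪≫ whiskerLeftIso A (β_ B X) ≪≫ (α_ A X B).symm

theorem app_sw {A B X : LC} (a : OnePoint A) (b : OnePoint B) (x : OnePoint X) :
    app (sw A B X).hom (smash (smash a b) x) = smash (smash a x) b := by
  change app (α_ A X B).inv (app (A ◁ (β_ B X).hom) (app (α_ A B X).hom _)) = _
  erw [app_associator_smash, app_whiskerLeft_smash, app_braiding_smash, app_associator_inv_smash]

theorem app_tensorμ {A B X Y : LC} (a : OnePoint A) (b : OnePoint B) (x : OnePoint X)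
    (y : OnePoint Y) :
    app (tensorμ A B X Y) (smash (smash a b) (smash x y)) = smash (smash a x) (smash b y) := by
  simp only [tensorμ, app_comp]
  erw [app_associator_smash, app_whiskerLeft_smash, app_associator_inv_smash,
    app_whiskerLeft_smash, app_whiskerRight_smash, app_braiding_smash, app_whiskerLeft_smash,
    app_associator_smash, app_associator_inv_smash]

namespace Ac

variable {P P' : Ac} {X : LC}

theorem app_m2 (g : P.A ⟶ P'.A) (hg : P.τ ≫ g = g ≫ P'.τ) (a : OnePoint P.A) (b : OnePoint BB) :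
    app (m2 g hg) (app P.q2 (smash a b)) = app P'.q2 (smash (app g a) b) := by
  rw [← app_comp, q2_m2, app_comp, app_whiskerRight_smash]

theorem ext2 {Z : LC} {f g : P.D2 ⊗ X ⟶ Z} (h : ∀ (a : P.A) (b : BB) (x : X),
    app f (smash (app P.q2 (smash (a : OnePoint P.A) (b : OnePoint BB))) (x : OnePoint X)) =
      app g (smash (app P.q2 (smash (a : OnePoint P.A) (b : OnePoint BB))) (x : OnePoint X))) :
    f = g :=
  ext_of_surj (surj_whiskerRight P.surj_q2 X) (tensor_ext₃ fun a b x => by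
    rw [app_comp, app_comp, app_whiskerRight_smash, h])

theorem exists_lx (k : P.A ⊗ X ⟶ P'.A) (hk : P.τ ▷ X ≫ k = k ≫ P'.τ) :
    ∃ l : P.D2 ⊗ X ⟶ P'.D2, ∀ (a : OnePoint P.A) (b : OnePoint BB) (x : OnePoint X),
      app l (smash (app P.q2 (smash a b)) x) = app P'.q2 (smash (app k (smash a x)) b) := by
  have h0 : ∀ (a : OnePoint P.A) (b : OnePoint BB) (x : OnePoint X),
      app ((sw P.A BB X).hom ≫ k ▷ BB ≫ P'.q2) (smash (smash a b) x) =
        app P'.q2 (smash (app k (smash a x)) b) := fun a b x => by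
    rw [app_comp, app_comp, app_sw, app_whiskerRight_smash]
  obtain ⟨l, hl⟩ := P.exists_desc ((sw P.A BB X).hom ≫ k ▷ BB ≫ P'.q2) fun a c x => by
    rw [h0, h0, q2_rot, ← app_comp k, ← hk, app_comp, app_whiskerRight_smash]
  exact ⟨l, fun a b x => by rw [← app_whiskerRight_smash, ← app_comp, hl, h0]⟩

variable (e : (P.A ⊗ X) ⊗ LC.of ℂ ⟶ P'.A)
  (he : (P.τ ▷ X ⊗ₘ (rotF z3).hom) ≫ e = e ≫ P'.τ)

include he

theorem exists_move (l : BB × unitInterval → OnePoint ℂ) (hl : Continuous l)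
    (β : BB × unitInterval → BB) (hβ : Continuous β)
    (h : ∀ c s, (l (bdry (z3 * c), s) = ∞ ∧ l (bdry c, s) = ∞) ∨
      (β (bdry (z3 * c), s) = bdry (z3 * c) ∧ β (bdry c, s) = bdry c ∧
        app (rotF z3).hom (l (bdry (z3 * c), s)) = l (bdry c, s))) :
    ∃ H : (P.D2 ⊗ X) ⊗ II ⟶ P'.D2,
      ∀ (a : OnePoint P.A) (b : BB) (x : OnePoint X) (s : unitInterval),
      app (incl s _ ≫ H) (smash (app P.q2 (smash a (b : OnePoint BB))) x) =
        app P'.q2 (smash (app e (smash (smash a x) (l (b, s)))) (β (b, s) : OnePoint BB)) := by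
  let m : BB ⊗ II ⟶ LC.of ℂ ⊗ BB := ofCpt (X := LC.of (BB × unitInterval)) (Y := LC.of (ℂ × BB))
    (fun p => smash (l p) (β p : OnePoint BB))
    (continuous_smash.comp (hl.prodMk (OnePoint.continuous_coe.comp hβ)))
  have h0 : ∀ (a : OnePoint P.A) (b : BB) (x : OnePoint X) (s : unitInterval),
      app (tensorμ P.A BB X II ≫ (P.A ⊗ X) ◁ m ≫ (α_ _ _ _).inv ≫ e ▷ BB ≫ P'.q2)
        (smash (smash a (b : OnePoint BB)) (smash x (s : OnePoint unitInterval))) =
        app P'.q2 (smash (app e (smash (smash a x) (l (b, s)))) (β (b, s) : OnePoint BB)) := by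
    intro a b x s
    rw [app_comp, app_comp, app_comp, app_comp, app_tensorμ, app_whiskerLeft_smash]
    erw [show app m (smash (b : OnePoint BB) (s : OnePoint unitInterval)) =
      smash (l (b, s)) (β (b, s) : OnePoint BB) from rfl, app_associator_inv_smash,
      app_whiskerRight_smash]
  obtain ⟨H, hH⟩ := P.exists_desc
    (tensorμ P.A BB X II ≫ (P.A ⊗ X) ◁ m ≫ (α_ _ _ _).inv ≫ e ▷ BB ≫ P'.q2) fun a c y => by
    obtain ⟨x, s, rfl⟩ := smash_coe_surjective y
    rw [h0, h0]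
    rcases h c s with ⟨h1, h2⟩ | ⟨h1, h2, h3⟩
    · rw [h1, h2, smash_infty_right, smash_infty_right, app_infty, smash_infty_left,
        smash_infty_left]
    · rw [h1, h2, q2_rot, ← app_comp e, ← he, app_comp, app_tensorHom_smash,
        app_whiskerRight_smash, h3]
  refine ⟨(α_ _ _ _).hom ≫ H, fun a b x s => ?_⟩
  rw [app_comp, app_comp, app_incl]
  erw [app_associator_smash]
  rw [← app_whiskerRight_smash P.q2 (X ⊗ II), ← app_comp, hH, h0]

/-- The zero section is homotopic to the collapse onto the top cell. -/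
theorem zero_htpy (Δ : P.D2 ⊗ X ⟶ P'.D2) (hΔ : ∀ (a : P.A) (b : BB) (x : X),
    app Δ (smash (app P.q2 (smash (a : OnePoint P.A) (b : OnePoint BB))) (x : OnePoint X)) =
      app P'.q2 (smash (app e (smash (smash (a : OnePoint P.A) (x : OnePoint X))
        ((0 : ℂ) : OnePoint ℂ))) (b : OnePoint BB))) :
    Homotopic Δ (P.c2 ▷ X ≫ (sw _ _ _).hom ≫ e ≫ P'.i1 ≫ P'.i2) := by
  obtain ⟨H, hH⟩ := exists_move e he lam continuous_lam Prod.fst continuous_fst
    fun c s => Or.inr ⟨rfl, rfl, lam_rot c s⟩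
  let β : BB × unitInterval → BB := fun p => ⟨(1 - (p.2 : ℝ)) • (p.1.1 : ℂ) + (p.2 : ℝ) • (1 : ℂ),
    convex_closedBall (0 : ℂ) 1 p.1.2 (bdry 1).2 (sub_nonneg.2 p.2.2.2) p.2.2.1
      (sub_add_cancel _ _)⟩
  obtain ⟨K, hK⟩ := exists_move e he (fun p => lam (p.1, 1))
    (continuous_lam.comp (continuous_fst.prodMk continuous_const)) β
    (Continuous.subtype_mk (by fun_prop) _)
    fun c s => Or.inl ⟨lam_one_of_eq (Circle.norm_coe _), lam_one_of_eq (Circle.norm_coe _)⟩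
  have b0 : ∀ b : BB, β (b, 0) = b := fun b => Subtype.ext (by simp [β])
  have b1 : ∀ b : BB, β (b, 1) = bdry 1 := fun b => Subtype.ext (by simp [β, bdry])
  refine Homotopic.trans (g := incl 1 _ ≫ H) ⟨H, ext2 fun a b x => ?_, rfl⟩
    ⟨K, ext2 fun a b x => ?_, ext2 fun a b x => ?_⟩
  · rw [hH, hΔ, lam_zero]
  · rw [hH, hK, b0]
  · rw [hK, b1, q2_one, app_comp (P.c2 ▷ X), app_whiskerRight_smash, ← app_comp P.q2, q2_c2,
      app_whiskerLeft_smash, app_comp (sw _ _ _).hom, app_sw, app_comp e]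
    rfl

end Ac

/-- the diagonal in the second factor -/
def dm (M W : LC) : (M ⊗ M ⊗ M) ⊗ W ⟶ (M ⊗ W) ⊗ (M ⊗ W) ⊗ (M ⊗ W) :=
  (M ⊗ M ⊗ M) ◁ (diag W ≫ W ◁ diag W) ≫ mix M M M W W W

theorem app_dm {M W : LC} (x y z : M) (w : OnePoint W) :
    app (dm M W) (smash (((x, y, z) : M × M × M) : OnePoint (M × M × M)) w) =
      smash (smash (x : OnePoint M) w) (smash (smash (y : OnePoint M) w) (smash (z : OnePoint M) w)) := by
  induction w using OnePoint.rec with
  | infty => exact app_infty _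
  | coe w => rfl

theorem rot_dm (M W : LC) : rot M M M ▷ W ≫ dm M W = dm M W ≫ rot _ _ _ :=
  hom_ext fun _ => rfl

/-- the third power of a suspension -/
def eS (M : LC) : ((M ⊗ M ⊗ M) ⊗ RR) ⊗ LC.of ℂ ≅ (M ⊗ RR) ⊗ (M ⊗ RR) ⊗ (M ⊗ RR) :=
  α_ _ _ _ ≪≫ whiskerLeftIso _ (FCP.ι.mapIso GeoN.eR).symm ≪≫
    Functor.Monoidal.μIso (P236Z.Cat.cube LC) M RR

theorem eS_hom (M : LC) : (eS M).hom =
    (α_ _ _ _).hom ≫ (M ⊗ M ⊗ M) ◁ GeoN.eR.inv.hom ≫ mix M M M RR RR RR := by
  rw [← cube_μ]; rfl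

theorem rot_eS (M : LC) :
    (rot M M M ▷ RR ⊗ₘ (rotF z3).hom) ≫ (eS M).hom = (eS M).hom ≫ rot _ _ _ := by
  have h : RR ◁ (rotF z3).hom ≫ GeoN.eR.inv.hom = GeoN.eR.inv.hom ≫ rot RR RR RR :=
    congrArg (·.hom) (show RRF ◁ rotF z3 ≫ GeoN.eR.inv = GeoN.eR.inv ≫ rot RRF RRF RRF by
      rw [Iso.comp_inv_eq, Category.assoc, GeoN.rot_eR, Iso.inv_hom_id_assoc])
  rw [eS_hom, Category.assoc, Category.assoc, mix_rot, ← tensorHom_id,
    associator_naturality_assoc, id_tensorHom, ← id_tensorHom (M ⊗ M ⊗ M),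
    tensorHom_comp_tensorHom_assoc, tensorHom_comp_tensorHom_assoc, h, Category.comp_id,
    Category.id_comp]

theorem app_eS_zero (M : LC) (a : M × M × M) (t : ℝ) :
    app (eS M).hom (smash (smash (a : OnePoint (M × M × M)) (t : OnePoint ℝ))
      ((0 : ℂ) : OnePoint ℂ)) = app (dm M RR) (smash (a : OnePoint (M × M × M)) (t : OnePoint ℝ)) := by
  have h : diag RR ≫ RR ◁ diag RR = ((ρ_ RR).inv ≫ RR ◁ orgF.hom) ≫ GeoN.eR.inv.hom :=
    congrArg (·.hom) (show dgF RRF = ((ρ_ _).inv ≫ RRF ◁ orgF) ≫ GeoN.eR.inv by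
      rw [← GeoN.dg_eR, Category.assoc, Iso.hom_inv_id, Category.comp_id])
  rw [eS_hom, dm, h, MonoidalCategory.whiskerLeft_comp, Category.assoc]
  rfl

theorem app_cube {M N : LC} (g : M ⟶ N) (x y z : M) :
    app (g ⊗ₘ g ⊗ₘ g) (((x, y, z) : M × M × M) : OnePoint (M × M × M)) =
      smash (app g x) (smash (app g y) (app g z)) := rfl

theorem rot_cube {M N : LC} (g : M ⟶ N) : (Ac.cube M).τ ≫ (g ⊗ₘ g ⊗ₘ g) =
    (g ⊗ₘ g ⊗ₘ g) ≫ (Ac.cube N).τ := (rot_natural g g g).symm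

/-- the map induced on two-skeleta -/
abbrev D2m {M N : LC} (g : M ⟶ N) : (Ac.cube M).D2 ⟶ (Ac.cube N).D2 :=
  Ac.m2 (P := Ac.cube M) (P' := Ac.cube N) (g ⊗ₘ g ⊗ₘ g) (rot_cube g)

/-- The comparison of the cone of the induced map with the construction on the cone. -/
theorem exists_phi {X Y : LC} (f : X ⟶ Y) :
    ∃ Φ : cone (D2m f) ⟶ (Ac.cube (cone f)).D2, coneInr _ ≫ Φ = D2m (coneInr f) ∧
      Homotopic (Φ ≫ D2m (coneConn f)) (coneConn _ ≫ (Ac.cube X).c2 ▷ RR ≫ (sw _ _ _).hom ≫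
        (eS X).hom ≫ (Ac.cube (X ⊗ RR)).i1 ≫ (Ac.cube (X ⊗ RR)).i2) := by
  obtain ⟨Δ, hΔ⟩ := Ac.exists_lx (P := Ac.cube X) (P' := Ac.cube (X ⊗ RR)) (dm X RR) (rot_dm X RR)
  obtain ⟨l, hl⟩ := Ac.exists_lx (P := Ac.cube X) (P' := Ac.cube (cone f))
    (dm X HH ≫ (coneInl f ⊗ₘ coneInl f ⊗ₘ coneInl f))
    (by rw [reassoc_of% rot_dm X HH, Category.assoc, rot_natural])
  have h0 : ∀ x : X, app (coneInl f) (smash (x : OnePoint X) ((0 : NNReal) : OnePoint NNReal)) =
      app (coneInr f) (app f x) := fun x => congrArg (app · (x : OnePoint X)) (cone_w f)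
  have h1 : ∀ (x : X) (t : OnePoint NNReal),
      app (coneConn f) (app (coneInl f) (smash (x : OnePoint X) t)) =
        smash (x : OnePoint X) (app collHH t) := fun x t => by
    rw [← app_comp, coneInl_conn, app_whiskerLeft_smash]
  have w : coneBase _ ≫ l = D2m f ≫ D2m (coneInr f) :=
    ext_of_surj (Ac.cube X).surj_q2 (tensor_ext fun ⟨x, y, z⟩ b => by
      rw [app_comp, app_comp, app_comp, app_comp, app_coneBase, hl, Ac.app_m2, Ac.app_m2, app_comp,
        app_dm, app_tensorHom_smash, app_tensorHom_smash, h0, h0, h0, app_cube,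
        app_tensorHom_smash, app_tensorHom_smash])
  refine ⟨(isPushout_cone _).desc l _ w, IsPushout.inr_desc _ _ _ _,
    (Homotopic.of_eq (g := coneConn _ ≫ Δ) (cone_hom_ext _ ?_ ?_)).trans
      ((Ac.zero_htpy (P := Ac.cube X) (P' := Ac.cube (X ⊗ RR)) (eS X).hom (rot_eS X) Δ
        fun a b t => ?_).comp_left _)⟩
  · rw [IsPushout.inl_desc_assoc, coneInl_conn_assoc]
    refine Ac.ext2 fun ⟨x, y, z⟩ b t => ?_
    rw [app_comp, app_comp, hl, Ac.app_m2, app_whiskerLeft_smash, hΔ, app_comp, app_dm, app_dm,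
      app_tensorHom_smash, app_tensorHom_smash, app_tensorHom_smash, app_tensorHom_smash, h1, h1, h1]
  · rw [IsPushout.inr_desc_assoc, coneInr_conn_assoc, zero_comp]
    refine ext_of_surj (Ac.cube Y).surj_q2 (tensor_ext fun ⟨x, y, z⟩ b => ?_)
    rw [app_comp, app_comp, Ac.app_m2, Ac.app_m2, comp_zero, app_zero, app_cube,
      app_tensorHom_smash, ← app_comp (coneInr f), coneInr_conn, app_zero, smash_infty_left,
      smash_infty_left, app_infty]
  · exact (hΔ a b t).trans (congrArg (fun y => app (Ac.cube (X ⊗ RR)).q2 (smash y (b : OnePoint BB)))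
      (app_eS_zero X a t).symm)

end Vale.Agent.P236G
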