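import Vale.Agent.P236G.Sp

/-!
# P236, block ORD: the retraction of the two-skeleton of the cube of a complex vector space
-/

open CategoryTheory MonoidalCategory Limits OnePoint Set Filter Topology
open Vale.Agent.P251 Vale.Agent.P251.G Vale.Agent.P251.G.LC
open Vale.Agent.P236Z.Cat Vale.Agent.P236Z.Cat.Gs
open scoped ComplexConjugate

noncomputable section

namespace Vale.Agent.P236G

section Alg

variable {V : Type} [AddCommGroup V] [Module ℂ V]

/-- the Fourier transform -/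
def fou (w : ℂ) (y : V × V × V) : V × V × V :=
  (y.1 + y.2.1 + y.2.2, y.1 + w • y.2.1 + w ^ 2 • y.2.2, y.1 + w ^ 2 • y.2.1 + w • y.2.2)

/-- a linear map of the last two coordinates -/
def mat (a b c d : ℂ) (y : V × V × V) : V × V × V :=
  (y.1, a • y.2.1 + b • y.2.2, c • y.2.1 + d • y.2.2)

theorem fou_fou {w w' : ℂ} (h : w ^ 2 + w + 1 = 0) (h' : w' = w ^ 2) (y : V × V × V) :
    (3 : ℂ)⁻¹ • fou w' (fou w y) = y := by
  subst h'
  refine Prod.ext ?_ (Prod.ext ?_ ?_) <;> simp only [fou, Prod.smul_fst, Prod.smul_snd] <;>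
    match_scalars
  · ring
  · linear_combination h / 3
  · linear_combination h / 3
  · linear_combination (w ^ 2 - w + 1) * h / 3
  · linear_combination (w - 1) * (w ^ 3 + 2) * h / 3
  · linear_combination (w ^ 3 - w + 1) * h / 3
  · linear_combination (w ^ 2 - w + 1) * h / 3
  · linear_combination (w ^ 3 - w + 1) * h / 3
  · linear_combination (w - 1) * (w ^ 3 + 2) * h / 3

theorem mat_mat {b c p n : ℂ} (h : n * (b * c + p * p) = 1) (y : V × V × V) :
    mat (n * c) (n * p) (-(n * p)) (n * b) (mat b (-p) p c y) = y := by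
  refine Prod.ext rfl (Prod.ext ?_ ?_) <;> simp only [mat] <;> match_scalars
  · linear_combination h
  · ring
  · ring
  · linear_combination h

theorem mat_fou {w : ℂ} (h : w ^ 2 + w + 1 = 0) (b c : ℂ) (y : V × V × V) :
    mat (w * b) (-0) 0 (w ^ 2 * c) (fou w y) = mat b (-0) 0 c (fou w (y.2.2, y.1, y.2.1)) := by
  refine Prod.ext ?_ (Prod.ext ?_ ?_) <;> simp only [fou, mat] <;> match_scalars
  · ring
  · ring
  · ring
  · ring
  · ring
  · linear_combination b * (w - 1) * h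
  · ring
  · linear_combination c * w * (w - 1) * h
  · linear_combination c * (w - 1) * h

theorem fou_smul (w a : ℂ) (y : V × V × V) : fou w (a • y) = a • fou w y := by
  refine Prod.ext ?_ (Prod.ext ?_ ?_) <;> simp only [fou, Prod.smul_fst, Prod.smul_snd] <;> module

end Alg

/-- the distance from the boundary -/
def dB (b : BB) : ℂ := ((1 - ‖(b.1 : ℂ)‖ : ℝ) : ℂ)

theorem dB_bdry (c : Circle) : dB (bdry c) = 0 := by
  have h : ‖((bdry c).1 : ℂ)‖ = 1 := Circle.norm_coe c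
  rw [dB, h, sub_self, Complex.ofReal_zero]

theorem det_ne (b : BB) : (b.1 : ℂ) * conj (b.1 : ℂ) + dB b * dB b ≠ 0 := by
  rw [Complex.mul_conj, Complex.normSq_eq_norm_sq, dB, ← Complex.ofReal_mul, ← Complex.ofReal_add,
    Complex.ofReal_ne_zero]
  nlinarith [sq_nonneg (2 * ‖(b.1 : ℂ)‖ - 1)]

theorem exists_ret₀ (V : Type) [NormedAddCommGroup V] [NormedSpace ℂ V] [LocallyCompactSpace V] :
    ∃ r : (Ac.cube (LC.of V)).D2 ⟶ LC.of V ⊗ LC.of V ⊗ LC.of V,
      (Ac.cube (LC.of V)).i1 ≫ (Ac.cube (LC.of V)).i2 ≫ r = 𝟙 _ := by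
  have hw : (z3 : ℂ) ^ 2 + z3 + 1 = 0 := GeoN.z_sum
  have hw' : ((z3 : ℂ) ^ 2) ^ 2 + z3 ^ 2 + 1 = 0 := by
    linear_combination ((z3 : ℂ) ^ 2 - z3 + 1) * hw
  have hw'' : (z3 : ℂ) = (z3 ^ 2) ^ 2 := by linear_combination -(z3 : ℂ) * (z3 - 1) * hw
  let g : (V × V × V) × BB → V × V × V := fun p =>
    (3 : ℂ)⁻¹ • fou (z3 ^ 2) (mat p.2.1 (-dB p.2) (dB p.2) (conj (p.2.1 : ℂ)) (fou z3 p.1))
  let n : BB → ℂ := fun b => ((b.1 : ℂ) * conj (b.1 : ℂ) + dB b * dB b)⁻¹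
  let k : (V × V × V) × BB → V × V × V := fun p => (3 : ℂ)⁻¹ • fou (z3 ^ 2)
    (mat (n p.2 * conj (p.2.1 : ℂ)) (n p.2 * dB p.2) (-(n p.2 * dB p.2)) (n p.2 * p.2.1)
      (fou z3 p.1))
  have hd : Continuous dB := by unfold dB; fun_prop
  have hn : Continuous n := Continuous.inv₀ (by fun_prop) det_ne
  have hg : Continuous g := by unfold g fou mat; fun_prop
  have hk : Continuous k := by unfold k fou mat; fun_prop
  have hkg : ∀ p, k (g p, p.2) = p.1 := fun p => by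
    simp only [k, g]
    rw [fou_smul, fou_fou hw' hw'', mat_mat (inv_mul_cancel₀ (det_ne _)), fou_fou hw rfl]
  let G : (LC.of V ⊗ LC.of V ⊗ LC.of V) ⊗ BB ⟶ LC.of V ⊗ LC.of V ⊗ LC.of V :=
    ofProper (X := LC.of ((V × V × V) × BB)) (Y := LC.of (V × V × V)) g hg
      (tendsto_cocompact_of_preimage fun K hK => ⟨(k '' (K ×ˢ univ)) ×ˢ univ,
        ((hK.prod isCompact_univ).image hk).prod isCompact_univ,
        fun p hp => ⟨⟨(g p, p.2), ⟨hp, mem_univ _⟩, hkg p⟩, mem_univ _⟩⟩)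
  obtain ⟨r, hr⟩ := (Ac.cube (LC.of V)).exists_desc' G fun a c => by
    induction a using OnePoint.rec with
    | infty => rw [app_infty]; rfl
    | coe a =>
      refine congrArg OnePoint.some (show g (a, bdry (z3 * c)) = g ((a.2.2, a.1, a.2.1), bdry c) from ?_)
      simp only [g, dB_bdry]
      rw [← mat_fou hw, ← GeoN.z_conj, ← map_mul]
      rfl
  refine ⟨r, hom_ext fun a => ?_⟩
  rw [← Category.assoc, app_comp, ← Ac.q2_one, ← app_comp, hr]
  refine congrArg OnePoint.some (show g (a, bdry 1) = a from ?_)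
  simp only [g, dB_bdry]
  refine Eq.trans ?_ (fou_fou hw rfl a)
  congr 2
  simp [mat, bdry]

/-- The retraction of the two-skeleton onto the fibre. -/
theorem exists_ret {Y : LC} {n : ℕ} (e : Y ≅ LC.of (Fin n → ℂ)) :
    ∃ r : (Ac.cube Y).D2 ⟶ Y ⊗ Y ⊗ Y, (Ac.cube Y).i1 ≫ (Ac.cube Y).i2 ≫ r = 𝟙 _ := by
  obtain ⟨r, hr⟩ := exists_ret₀ (Fin n → ℂ)
  have h := (rot_natural e.hom e.hom e.hom).symm
  refine ⟨Ac.m2 (P := Ac.cube Y) (P' := Ac.cube _) _ h ≫ r ≫ (e.inv ⊗ₘ e.inv ⊗ₘ e.inv), ?_⟩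
  rw [reassoc_of% Ac.i2_m2 (P := Ac.cube Y) (P' := Ac.cube _) _ h,
    reassoc_of% Ac.i1_m1 (P := Ac.cube Y) (P' := Ac.cube _) _ h, reassoc_of% hr,
    tensorHom_comp_tensorHom, tensorHom_comp_tensorHom, e.hom_inv_id, id_tensorHom_id,
    id_tensorHom_id]

end Vale.Agent.P236G
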