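import Vale.Agent.P236G.Geo
import Vale.Agent.P236R.Cube
import Vale.Agent.P236Z.Cat.Sh
import Vale.Agent.P236Z.Tr.Real
import Vale.Agent.P257.H709.PowT

/-!
# P236, block ORD: desuspension of the cyclic cube construction

`cycStmt_of : GeoStmt T → CycStmt T`.
-/

open CategoryTheory MonoidalCategory Limits Pretriangulated
open Vale.Agent.P251.T Vale.Agent.P251.I Vale.Agent.P251.G Vale.Agent.P236Z.Cat
  Vale.Agent.P251.S Vale.Agent.P251.M Vale.Agent.P257.H762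

set_option linter.unusedSectionVars false

universe v u

namespace Vale.Agent.P236G

variable {T : Type u} [Category.{v} T] [Preadditive T] [HasZeroObject T] [HasShift T ℤ]
  [∀ n : ℤ, (shiftFunctor T n).Additive] [Pretriangulated T]

section Map

variable (G : T ⥤ T) [G.CommShift ℤ] [G.IsTriangulated]

/-- The suspension of an isomorphism `B ≅ G A`. -/
noncomputable def up {A B : T} (e : B ≅ G.obj A) : B⟦(1 : ℤ)⟧ ≅ G.obj (A⟦(1 : ℤ)⟧) :=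
  (shiftFunctor T (1 : ℤ)).mapIso e ≪≫ ((G.commShiftIso (1 : ℤ)).app A).symm

lemma up_inv {A B : T} (e : B ≅ G.obj A) :
    (up G e).inv = (G.commShiftIso (1 : ℤ)).hom.app A ≫ e.inv⟦(1 : ℤ)⟧' := rfl

variable {G} in
lemma inv_nat {A B A' B' : T} {e : B ≅ G.obj A} {e' : B' ≅ G.obj A'} {g : A ⟶ A'} {h : B ⟶ B'}
    (H : h ≫ e'.hom = e.hom ≫ G.map g) : G.map g ≫ e'.inv = e.inv ≫ h := by
  rw [Iso.comp_inv_eq, Category.assoc, H, Iso.inv_hom_id_assoc]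

variable {G} in
lemma up_nat {A B A' B' : T} {e : B ≅ G.obj A} {e' : B' ≅ G.obj A'} {g : A ⟶ A'} {h : B ⟶ B'}
    (H : h ≫ e'.hom = e.hom ≫ G.map g) :
    h⟦(1 : ℤ)⟧' ≫ (up G e').hom = (up G e).hom ≫ G.map (g⟦(1 : ℤ)⟧') := by
  have h1 : G.map (g⟦(1 : ℤ)⟧') ≫ (G.commShiftIso (1 : ℤ)).hom.app A' =
      (G.commShiftIso (1 : ℤ)).hom.app A ≫ (G.map g)⟦(1 : ℤ)⟧' :=
    (G.commShiftIso (1 : ℤ)).hom.naturality g
  have h2 : G.map (g⟦(1 : ℤ)⟧') ≫ (up G e').inv = (up G e).inv ≫ h⟦(1 : ℤ)⟧' := by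
    rw [up_inv, up_inv, reassoc_of% h1, Category.assoc, ← Functor.map_comp, ← Functor.map_comp,
      inv_nat H]
  rw [← Iso.inv_comp_eq, ← reassoc_of% h2, Iso.inv_hom_id, Category.comp_id]

/-- The image of the skeleta under a triangulated functor. -/
noncomputable def Orb.map {A B : T} {t : A ⟶ A} {s : B ⟶ B} (P : Orb A t) (e : B ≅ G.obj A)
    (he : s ≫ e.hom = e.hom ≫ G.map t) : Orb B s where
  D1 := G.obj P.D1
  D2 := G.obj P.D2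
  i1 := e.hom ≫ G.map P.i1
  j1 := G.map P.j1 ≫ (up G e).inv
  d1 := (up G e).hom ≫ G.map P.d1 ≫ (up G e).inv
  bd := (up G e).hom ≫ G.map P.bd
  i2 := G.map P.i2
  j2 := G.map P.j2 ≫ (up G (up G e)).inv
  ε := (up G e).hom ≫ G.map P.ε ≫ (up G e).inv
  tr1 := by
    refine isomorphic_distinguished _ (G.map_distinguished _ P.tr1) _
      (Triangle.isoMk _ _ e (Iso.refl _) (up G e) ?_ ?_ ?_)
    · change (e.hom ≫ G.map P.i1) ≫ 𝟙 _ = e.hom ≫ G.map P.i1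
      rw [Category.comp_id]
    · change (G.map P.j1 ≫ (up G e).inv) ≫ (up G e).hom = 𝟙 _ ≫ G.map P.j1
      rw [Category.assoc, Iso.inv_hom_id, Category.comp_id, Category.id_comp]
    · change ((up G e).hom ≫ G.map P.d1 ≫ (up G e).inv) ≫ e.hom⟦(1 : ℤ)⟧' =
        (up G e).hom ≫ G.map P.d1 ≫ (G.commShiftIso (1 : ℤ)).hom.app A
      rw [up_inv]
      simp only [Category.assoc]
      rw [← Functor.map_comp, Iso.inv_hom_id, CategoryTheory.Functor.map_id]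
      exact congrArg _ (congrArg _ (Category.comp_id _))
  tr2 := by
    refine isomorphic_distinguished _ (G.map_distinguished _ P.tr2) _
      (Triangle.isoMk _ _ (up G e) (Iso.refl _) (Iso.refl _) ?_ ?_ ?_)
    · change ((up G e).hom ≫ G.map P.bd) ≫ 𝟙 _ = (up G e).hom ≫ G.map P.bd
      rw [Category.comp_id]
    · change G.map P.i2 ≫ 𝟙 _ = 𝟙 _ ≫ G.map P.i2
      rw [Category.comp_id, Category.id_comp]
    · change (G.map P.j2 ≫ (up G (up G e)).inv) ≫ (up G e).hom⟦(1 : ℤ)⟧' =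
        𝟙 _ ≫ G.map P.j2 ≫ (G.commShiftIso (1 : ℤ)).hom.app (A⟦(1 : ℤ)⟧)
      rw [up_inv G (up G e)]
      simp only [Category.assoc]
      rw [← Functor.map_comp, Iso.inv_hom_id, CategoryTheory.Functor.map_id, Category.id_comp]
      exact congrArg _ (Category.comp_id _)
  rot := by rw [reassoc_of% he, ← G.map_comp, P.rot]
  nrm := by
    have h1 : (𝟙 B + s + s ≫ s) ≫ e.hom = e.hom ≫ G.map (𝟙 A + t + t ≫ t) := by
      rw [G.map_add, G.map_add, G.map_comp, G.map_id, Preadditive.add_comp, Preadditive.add_comp,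
        Preadditive.comp_add, Preadditive.comp_add, Category.assoc, he, reassoc_of% he,
        Category.id_comp, Category.comp_id]
    rw [Category.assoc, ← G.map_comp_assoc, P.nrm, G.map_comp, reassoc_of% (up_nat h1),
      Category.assoc]

/-- The image of a map of skeleta. -/
noncomputable def Orb.Map.map {A B A' B' : T} {t : A ⟶ A} {s : B ⟶ B} {t' : A' ⟶ A'}
    {s' : B' ⟶ B'} {P : Orb A t} {P' : Orb A' t'} {g : A ⟶ A'} (m : P.Map P' g)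
    {e : B ≅ G.obj A} (he : s ≫ e.hom = e.hom ≫ G.map t) {e' : B' ≅ G.obj A'}
    (he' : s' ≫ e'.hom = e'.hom ≫ G.map t') {h : B ⟶ B'} (H : h ≫ e'.hom = e.hom ≫ G.map g) :
    (P.map G e he).Map (P'.map G e' he') h where
  m1 := G.map m.m1
  m2 := G.map m.m2
  i1 := by
    change (e.hom ≫ G.map P.i1) ≫ G.map m.m1 = h ≫ e'.hom ≫ G.map P'.i1
    rw [Category.assoc, ← G.map_comp, m.i1, G.map_comp, reassoc_of% H]
  j1 := by
    change G.map m.m1 ≫ G.map P'.j1 ≫ (up G e').inv =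
      (G.map P.j1 ≫ (up G e).inv) ≫ h⟦(1 : ℤ)⟧'
    rw [← G.map_comp_assoc, m.j1, G.map_comp, Category.assoc, Category.assoc,
      inv_nat (up_nat H)]
  d1 := by
    change h⟦(1 : ℤ)⟧' ≫ (up G e').hom ≫ G.map P'.d1 ≫ (up G e').inv =
      ((up G e).hom ≫ G.map P.d1 ≫ (up G e).inv) ≫ h⟦(1 : ℤ)⟧'
    rw [reassoc_of% (up_nat H), ← G.map_comp_assoc, m.d1, G.map_comp, Category.assoc,
      Category.assoc, Category.assoc, inv_nat (up_nat H)]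
  bd := by
    change ((up G e).hom ≫ G.map P.bd) ≫ G.map m.m1 = h⟦(1 : ℤ)⟧' ≫ (up G e').hom ≫ G.map P'.bd
    rw [Category.assoc, ← G.map_comp, m.bd, G.map_comp, reassoc_of% (up_nat H)]
  i2 := by
    change G.map P.i2 ≫ G.map m.m2 = G.map m.m1 ≫ G.map P'.i2
    rw [← G.map_comp, m.i2, G.map_comp]
  j2 := by
    change G.map m.m2 ≫ G.map P'.j2 ≫ (up G (up G e')).inv =
      (G.map P.j2 ≫ (up G (up G e)).inv) ≫ h⟦(1 : ℤ)⟧'⟦(1 : ℤ)⟧'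
    rw [← G.map_comp_assoc, m.j2, G.map_comp, Category.assoc, Category.assoc,
      inv_nat (up_nat (up_nat H))]

/-- The image of the whole structure. -/
noncomputable def Cyc.map {X Y C Z X' Y' C' Z' : T} {tX : X ⟶ X} {tY : Y ⟶ Y} {tC : C ⟶ C}
    {tZ : Z ⟶ Z} {f : X ⟶ Y} {e : Y ⟶ C} {p : C ⟶ Z} (K : Cyc tX tY tC tZ f e p)
    {sX : X' ⟶ X'} {sY : Y' ⟶ Y'} {sC : C' ⟶ C'} {sZ : Z' ⟶ Z'} {f' : X' ⟶ Y'} {e' : Y' ⟶ C'}
    {p' : C' ⟶ Z'} (a : X' ≅ G.obj X) (b : Y' ≅ G.obj Y) (c : C' ≅ G.obj C) (z : Z' ≅ G.obj Z)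
    (ha : sX ≫ a.hom = a.hom ≫ G.map tX) (hb : sY ≫ b.hom = b.hom ≫ G.map tY)
    (hc : sC ≫ c.hom = c.hom ≫ G.map tC) (hz : sZ ≫ z.hom = z.hom ≫ G.map tZ)
    (hf : f' ≫ b.hom = a.hom ≫ G.map f) (he : e' ≫ c.hom = b.hom ≫ G.map e)
    (hp : p' ≫ z.hom = c.hom ≫ G.map p) : Cyc sX sY sC sZ f' e' p' where
  PX := K.PX.map G a ha
  PY := K.PY.map G b hb
  PC := K.PC.map G c hc
  PZ := K.PZ.map G z hz
  mf := K.mf.map G ha hb hf
  me := K.me.map G hb hc he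
  mp := K.mp.map G hc hz hp
  r := G.map K.r ≫ b.inv
  ret := by
    change (b.hom ≫ G.map K.PY.i1) ≫ G.map K.PY.i2 ≫ G.map K.r ≫ b.inv = 𝟙 _
    rw [Category.assoc, ← G.map_comp_assoc, ← G.map_comp_assoc, Category.assoc, K.ret, G.map_id,
      Category.id_comp, Iso.hom_inv_id]
  C' := G.obj K.C'
  e' := G.map K.e'
  p' := G.map K.p' ≫ (G.commShiftIso (1 : ℤ)).hom.app K.PX.D2
  tr := G.map_distinguished _ K.tr
  Φ := G.map K.Φ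
  eΦ := by
    change G.map K.e' ≫ G.map K.Φ = G.map K.me.m2
    rw [← G.map_comp, K.eΦ]
  θ := up G (up G (up G a)) ≪≫ G.mapIso K.θ ≪≫ z.symm
  Φp := by
    change G.map K.Φ ≫ G.map K.mp.m2 =
      (G.map K.p' ≫ (G.commShiftIso (1 : ℤ)).hom.app K.PX.D2) ≫
        (G.map K.PX.j2 ≫ (up G (up G a)).inv)⟦(1 : ℤ)⟧' ≫
        ((up G (up G (up G a))).hom ≫ G.map K.θ.hom ≫ z.inv) ≫ (z.hom ≫ G.map K.PZ.i1) ≫
          G.map K.PZ.i2
    have h1 : (G.map K.PX.j2 ≫ (up G (up G a)).inv) ≫ (up G (up G a)).hom =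
        (Iso.refl (G.obj K.PX.D2)).hom ≫ G.map K.PX.j2 := by
      rw [Category.assoc, Iso.inv_hom_id, Category.comp_id, Iso.refl_hom, Category.id_comp]
    have h2 : (G.commShiftIso (1 : ℤ)).hom.app K.PX.D2 = (up G (Iso.refl (G.obj K.PX.D2))).inv := by
      rw [up_inv, Iso.refl_inv, CategoryTheory.Functor.map_id]
      exact (Category.comp_id _).symm
    rw [← G.map_comp, K.Φp, h2]
    simp only [Category.assoc]
    rw [reassoc_of% (up_nat h1), Iso.inv_hom_id_assoc, Iso.inv_hom_id_assoc]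
    simp only [G.map_comp]

end Map

variable [MonoidalCategory T] [SymmetricCategory T]

/-- The structure for third tensor powers. -/
def Cyc.toCyc3 {X Y C Z : T} {f : X ⟶ Y} {e : Y ⟶ C} {p : C ⟶ Z}
    (K : Cyc (rot X X X) (rot Y Y Y) (rot C C C) (rot Z Z Z) (f ⊗ₘ f ⊗ₘ f) (e ⊗ₘ e ⊗ₘ e)
      (p ⊗ₘ p ⊗ₘ p)) : Cyc3 f e p :=
  ⟨K.PX, K.PY, K.PC, K.PZ, K.mf, K.me, K.mp, K.r, K.ret, K.C', K.e', K.p', K.tr, K.Φ, K.eΦ, K.θ,
    K.Φp⟩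

instance (A B : T) : IsIso (mix A A A B B B) := by
  rw [← cube_μ]
  infer_instance

/-- The isomorphism `N ≅ (N ⊗ B) ⊗ B'` for `B ⊗ B' ≅ 𝟙`. -/
def wI {B B' : T} (u : B ⊗ B' ≅ 𝟙_ T) (N : T) : N ≅ (N ⊗ B) ⊗ B' :=
  (ρ_ N).symm ≪≫ whiskerLeftIso N u.symm ≪≫ (α_ N B B').symm

@[reassoc]
lemma wI_nat {B B' : T} (u : B ⊗ B' ≅ 𝟙_ T) {N N' : T} (φ : N ⟶ N') :
    φ ≫ (wI u N').hom = (wI u N).hom ≫ (φ ▷ B) ▷ B' := by
  simp only [wI, Iso.trans_hom, Iso.symm_hom, whiskerLeftIso_hom, Category.assoc]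
  rw [rightUnitor_inv_naturality_assoc, ← whisker_exchange_assoc,
    associator_inv_naturality_left]

variable [TensorTriangulated T] (F : SpaceFunctor T) {L L' : T} (u : (L ⊗ L ⊗ L) ⊗ L' ≅ 𝟙_ T)

/-- The third power of `M ⊗ L ≅ S M₀`. -/
noncomputable def cI {M : T} {M₀ : FCat} (a : M ⊗ L ≅ F.S.obj M₀) :
    (M ⊗ M ⊗ M) ⊗ (L ⊗ L ⊗ L) ≅ F.S.obj (M₀ ⊗ M₀ ⊗ M₀) :=
  asIso (mix M M M L L L) ≪≫ (a ⊗ᵢ a ⊗ᵢ a) ≪≫ asIso (m3 F.S M₀ M₀ M₀)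

lemma cI_hom {M : T} {M₀ : FCat} (a : M ⊗ L ≅ F.S.obj M₀) : (cI F a).hom =
    mix M M M L L L ≫ (a.hom ⊗ₘ a.hom ⊗ₘ a.hom) ≫ m3 F.S M₀ M₀ M₀ := rfl

lemma cI_nat {M M' : T} {M₀ M₀' : FCat} {a : M ⊗ L ≅ F.S.obj M₀} {a' : M' ⊗ L ≅ F.S.obj M₀'}
    {g : M ⟶ M'} {g₀ : M₀ ⟶ M₀'} (h : (g ▷ L) ≫ a'.hom = a.hom ≫ F.S.map g₀) :
    ((g ⊗ₘ g ⊗ₘ g) ▷ (L ⊗ L ⊗ L)) ≫ (cI F a').hom =
      (cI F a).hom ≫ F.S.map (g₀ ⊗ₘ g₀ ⊗ₘ g₀) := by
  have h1 := mix_natural g g g (𝟙 L) (𝟙 L) (𝟙 L)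
  rw [id_tensorHom_id, id_tensorHom_id, tensorHom_id, tensorHom_id] at h1
  rw [cI_hom, cI_hom, reassoc_of% h1, Category.assoc, Category.assoc, ← m3_natural]
  simp only [tensorHom_comp_tensorHom_assoc, tensorHom_comp_tensorHom, h]

lemma cI_rot (hL : rot L L L = 𝟙 _) {M : T} {M₀ : FCat} (a : M ⊗ L ≅ F.S.obj M₀) :
    (rot M M M ▷ (L ⊗ L ⊗ L)) ≫ (cI F a).hom = (cI F a).hom ≫ F.S.map (rot M₀ M₀ M₀) := by
  have h1 := mix_rot M M M L L L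
  rw [hL, tensorHom_id] at h1
  rw [cI_hom, ← reassoc_of% h1, Category.assoc, Category.assoc, ← rot_m3, rot_natural_assoc]

/-- The desuspension of the third power. -/
noncomputable def dI {M : T} {M₀ : FCat} (a : M ⊗ L ≅ F.S.obj M₀) :
    M ⊗ M ⊗ M ≅ (tensorRight L').obj (F.S.obj (M₀ ⊗ M₀ ⊗ M₀)) :=
  wI u (M ⊗ M ⊗ M) ≪≫ whiskerRightIso (cI F a) L'

lemma dI_comm {M M' : T} {M₀ M₀' : FCat} {a : M ⊗ L ≅ F.S.obj M₀} {a' : M' ⊗ L ≅ F.S.obj M₀'}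
    {φ : M ⊗ M ⊗ M ⟶ M' ⊗ M' ⊗ M'} {φ₀ : M₀ ⊗ M₀ ⊗ M₀ ⟶ M₀' ⊗ M₀' ⊗ M₀'}
    (h : (φ ▷ (L ⊗ L ⊗ L)) ≫ (cI F a').hom = (cI F a).hom ≫ F.S.map φ₀) :
    φ ≫ (dI F u a').hom = (dI F u a).hom ≫ (tensorRight L').map (F.S.map φ₀) := by
  change φ ≫ (wI u _).hom ≫ ((cI F a').hom ▷ L') =
    ((wI u _).hom ≫ ((cI F a).hom ▷ L')) ≫ (F.S.map φ₀ ▷ L')
  rw [wI_nat_assoc, ← comp_whiskerRight, h, comp_whiskerRight, Category.assoc]

/-- Realization of a map from a finite object to the unit. -/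
theorem exists_map {D : ℤ → Prop} {Q : T} (hQ : P236Z.Tr.Cell D Q) (g : Q ⟶ 𝟙_ T) :
    ∃ (n : ℕ) (L : T) (X Y : FCat) (f : X ⟶ Y), Nonempty (Y.obj ≅ LC.of (Fin n → ℂ)) ∧
      P236R.Sph L (2 * n) ∧ AI (g ▷ L) (F.S.map f) := by
  obtain ⟨k, U, ⟨e⟩, -⟩ := P236Z.Tr.exists_rl F F hQ
  let a₀ : Q ⊗ F.S.obj (SphF k) ≅ F.S.obj U := P236Z.Tr.tenOf Q (sphIso F k) ≪≫ e
  let g' : F.S.obj U ⟶ F.S.obj (SphF k) := a₀.inv ≫ (g ▷ F.S.obj (SphF k)) ≫ (λ_ _).hom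
  obtain ⟨n, h, hh⟩ := F.full g'
  have h1 : AI (g ⊗ₘ 𝟙 (F.S.obj (SphF k))) g' := ⟨a₀, λ_ _, by simp [g']⟩
  have h2 : AI (g' ⊗ₘ 𝟙 (F.S.obj (SphF n))) (F.S.map h) := by
    rw [hh, tensorHom_id]
    exact ⟨Functor.Monoidal.μIso F.S _ _, Functor.Monoidal.μIso F.S _ _, by simp⟩
  have h3 : AI (F.S.map h ⊗ₘ 𝟙 (F.S.obj (SphF (k + n)))) (F.S.map (h ▷ SphF (k + n))) := by
    have := (P257.H709.AI_S_tensor F h (𝟙 (SphF (k + n)))).symm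
    rwa [tensorHom_id, F.S.map_id] at this
  refine ⟨k + n, (F.S.obj (SphF k) ⊗ F.S.obj (SphF n)) ⊗ F.S.obj (SphF (k + n)), _, _,
    h ▷ SphF (k + n), ⟨(whiskerRightIso (LC.sphTensor k n) (LC.Sph (k + n)) ≪≫
      LC.sphTensor _ _) ≪≫ P257.H709.sphC _ (Fin (k + n)) (by simp; ring)⟩, ?_, ?_⟩
  · exact (P236R.Sph.tensor ⟨sphIso F k⟩ ⟨sphIso F n⟩ rfl).tensor ⟨sphIso F (k + n)⟩
      (by push_cast; ring)
  · have h4 := (((AI.assoc g (𝟙 _) (𝟙 (F.S.obj (SphF n)))).symm.trans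
      ((h1.tensor (AI.refl _)).trans h2)).tensor (AI.refl (𝟙 (F.S.obj (SphF (k + n)))))).trans h3
    have h5 := (AI.assoc g _ _).symm.trans h4
    rwa [id_tensorHom_id, id_tensorHom_id, tensorHom_id] at h5

/-- The cyclic cube construction for maps from finite objects to the unit. -/
theorem cycStmt_of (H : GeoStmt T) : CycStmt T := by
  intro F D Q C hQ g e p hΔ
  obtain ⟨n, L, X, Y, f, ⟨eY⟩, hL, a, b, hab⟩ := exists_map F hQ g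
  obtain ⟨K⟩ := H F X Y f n eY
  have hr : rot L L L = 𝟙 _ := by
    have hb := hL.br_even (by omega) (even_two_mul _)
    have h1 : P236R.cyc L ≫ rot L L L = 𝟙 _ := by
      rw [P236R.cyc, rot, Category.assoc, Iso.hom_inv_id_assoc, SymmetricCategory.symmetry]
    rwa [hb.cyc (one_mul 1), Category.id_comp] at h1
  obtain ⟨u⟩ : Nonempty ((L ⊗ L ⊗ L) ⊗ (𝟙_ T)⟦-(6 * (n : ℤ))⟧ ≅ 𝟙_ T) :=
    ((hL.tensor (hL.tensor hL rfl) rfl).tensor (P236R.sph_self _) (by ring)).nonempty_iso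
      P236R.sph_unit
  obtain ⟨c, hc1, hc2⟩ : ∃ c : C ⊗ L ⟶ F.S.obj (coneF f),
      (e ▷ L) ≫ c = b.hom ≫ F.S.map (coneInrF f) ∧
      ((p ▷ L) ≫ ((tensorRight L).commShiftIso (1 : ℤ)).hom.app Q) ≫ a.hom⟦(1 : ℤ)⟧' =
        c ≫ F.coneδ f :=
    complete_distinguished_triangle_morphism _ _ (dist_whiskerRight L hΔ)
      (F.cone_distinguished f) a.hom b.hom hab
  have hc : IsIso c := by
    have h := isIso₃_of_isIso₁₂ (Triangle.homMk _ _ a.hom b.hom c hab hc1 hc2 :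
      Triangle.mk (g ▷ L) (e ▷ L) ((p ▷ L) ≫ ((tensorRight L).commShiftIso (1 : ℤ)).hom.app Q) ⟶
        Triangle.mk (F.S.map f) (F.S.map (coneInrF f)) (F.coneδ f)) (dist_whiskerRight L hΔ)
      (F.cone_distinguished f) (inferInstanceAs (IsIso a.hom)) (inferInstanceAs (IsIso b.hom))
    exact h
  let z : (Q⟦(1 : ℤ)⟧) ⊗ L ≅ F.S.obj (X ⊗ RRF) :=
    ((tensorRight L).commShiftIso (1 : ℤ)).app Q ≪≫ (shiftFunctor T (1 : ℤ)).mapIso a ≪≫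
      (F.suspIso X).symm
  have hz : (p ▷ L) ≫ z.hom = (asIso c).hom ≫ F.S.map (coneConnF f) := by
    change (p ▷ L) ≫ ((tensorRight L).commShiftIso (1 : ℤ)).hom.app Q ≫ a.hom⟦(1 : ℤ)⟧' ≫
      (F.suspIso X).inv = c ≫ F.S.map (coneConnF f)
    rw [← Category.assoc, ← Category.assoc, hc2, SpaceFunctor.coneδ, Category.assoc,
      Category.assoc, Iso.hom_inv_id, Category.comp_id]
  exact ⟨(K.map (tensorRight _) (dI F u a) (dI F u b) (dI F u (asIso c)) (dI F u z)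
    (dI_comm F u (cI_rot F hr a)) (dI_comm F u (cI_rot F hr b))
    (dI_comm F u (cI_rot F hr (asIso c))) (dI_comm F u (cI_rot F hr z))
    (dI_comm F u (cI_nat F hab)) (dI_comm F u (cI_nat F (a := b) (a' := asIso c) hc1))
    (dI_comm F u (cI_nat F hz))).toCyc3⟩

end Vale.Agent.P236G
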