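import Vale.Agent.P236G.SpT
import Vale.Agent.P236G.Phi
import Vale.Agent.P236G.Ret
import Vale.Agent.P236G.Trn

/-!
# P236, block ORD: the geometric statement
-/

open CategoryTheory MonoidalCategory Limits Pretriangulated OnePoint
open Vale.Agent.P251 Vale.Agent.P251.T Vale.Agent.P251.G Vale.Agent.P251.G.LC Vale.Agent.P251.Q
  Vale.Agent.P251.I Vale.Agent.P251.M
open Vale.Agent.P236Z.Cat Vale.Agent.P236Z.Cat.Gs

noncomputable section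

universe v u

namespace Vale.Agent.P236G

/-- The third power of a complex vector space is a retract of the two-skeleton. -/
def RetStmt : Prop := ∀ (Y : LC) (n : ℕ) (_ : Y ≅ LC.of (Fin n → ℂ)),
  ∃ r : (Ac.cube Y).D2 ⟶ Y ⊗ Y ⊗ Y, (Ac.cube Y).i1 ≫ (Ac.cube Y).i2 ≫ r = 𝟙 _

/-- the third power of a finite cell space -/
abbrev cubeF (M : FCat) : AcF := ⟨M ⊗ M ⊗ M, rot M M M, rot_rot_rot M M M⟩

theorem rot_cubeF {M N : FCat} (g : M ⟶ N) : (cubeF M).τ ≫ (g ⊗ₘ g ⊗ₘ g) =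
    (g ⊗ₘ g ⊗ₘ g) ≫ (cubeF N).τ := (rot_natural g g g).symm

/-- the map induced on two-skeleta -/
abbrev D2F {M N : FCat} (g : M ⟶ N) : (cubeF M).D2 ⟶ (cubeF N).D2 :=
  AcF.m2 (P := cubeF M) (P' := cubeF N) (g ⊗ₘ g ⊗ₘ g) (rot_cubeF g)

/-- the identification of the top cell -/
def topF (X : FCat) : ((X ⊗ X ⊗ X) ⊗ CCF) ⊗ RRF ≅ (X ⊗ RRF) ⊗ (X ⊗ RRF) ⊗ (X ⊗ RRF) :=
  FCP.isoMk (sw (X.obj ⊗ X.obj ⊗ X.obj) (LC.of ℂ) RR ≪≫ eS X.obj)

variable {T : Type u} [Category.{v} T] [Preadditive T] [HasZeroObject T] [HasShift T ℤ]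
  [∀ n : ℤ, (shiftFunctor T n).Additive] [Pretriangulated T] [MonoidalCategory T]
  [SymmetricCategory T] [TensorTriangulated T] (F : SpaceFunctor T)

/-- the identification of the top cell -/
def topT (X : FCat) : (F.S.obj (X ⊗ X ⊗ X))⟦(1 : ℤ)⟧⟦(1 : ℤ)⟧⟦(1 : ℤ)⟧ ≅
    F.S.obj ((X ⊗ RRF) ⊗ (X ⊗ RRF) ⊗ (X ⊗ RRF)) :=
  (shiftFunctor T (1 : ℤ)).mapIso (susp2 F (X ⊗ X ⊗ X)).symm ≪≫ (F.suspIso _).symm ≪≫
    F.S.mapIso (topF X)

theorem phi_conn {X Y : FCat} (f : X ⟶ Y) (Φ : coneF (D2F f) ⟶ (cubeF (coneF f)).D2)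
    (h : Homotopic (Φ ≫ D2F (coneConnF f)).hom (coneConnF (D2F f) ≫ (cubeF X).c2 ▷ RRF ≫
      (topF X).hom ≫ (cubeF (X ⊗ RRF)).i1 ≫ (cubeF (X ⊗ RRF)).i2).hom) :
    F.S.map Φ ≫ F.S.map (D2F (coneConnF f)) = F.coneδ (D2F f) ≫
      (F.S.map (cubeF X).c2 ≫ (susp2 F (X ⊗ X ⊗ X)).hom)⟦(1 : ℤ)⟧' ≫ (topT F X).hom ≫
        F.S.map (cubeF (X ⊗ RRF)).i1 ≫ F.S.map (cubeF (X ⊗ RRF)).i2 := by
  rw [← F.S.map_comp, F.map_eq _ _ h]
  simp only [topT, SpaceFunctor.coneδ, Iso.trans_hom, Functor.mapIso_hom, Iso.symm_hom,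
    Functor.map_comp, Category.assoc]
  rw [← Functor.map_comp_assoc (shiftFunctor T (1 : ℤ)) (susp2 F _).hom, Iso.hom_inv_id,
    CategoryTheory.Functor.map_id, Category.id_comp, ← F.suspIso_naturality_assoc, Iso.hom_inv_id_assoc]

theorem geoStmt_of (hR : RetStmt) : GeoStmt T := by
  intro F X Y f n e
  obtain ⟨r, hr⟩ := hR Y.obj n e
  obtain ⟨Φ, h1, h2⟩ := exists_phi f.hom
  exact ⟨{
    PX := (cubeF X).orb F
    PY := (cubeF Y).orb F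
    PC := (cubeF (coneF f)).orb F
    PZ := (cubeF (X ⊗ RRF)).orb F
    mf := AcF.orbMap F _ (rot_cubeF f)
    me := AcF.orbMap F _ (rot_cubeF (coneInrF f))
    mp := AcF.orbMap F _ (rot_cubeF (coneConnF f))
    r := F.S.map (FCat.hom r : (cubeF Y).D2 ⟶ Y ⊗ Y ⊗ Y)
    ret := ((congrArg (F.S.map (cubeF Y).i1 ≫ ·) (F.S.map_comp _ _).symm).trans
      (F.S.map_comp _ _).symm).trans
      ((congrArg _ (ObjectProperty.hom_ext _ hr)).trans (F.S.map_id _))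
    C' := F.S.obj (coneF (D2F f))
    e' := F.S.map (coneInrF (D2F f))
    p' := F.coneδ (D2F f)
    tr := F.cone_distinguished (D2F f)
    Φ := F.S.map (FCat.hom Φ : coneF (D2F f) ⟶ (cubeF (coneF f)).D2)
    eΦ := (F.S.map_comp _ _).symm.trans (congrArg _ (ObjectProperty.hom_ext _ h1))
    θ := topT F X
    Φp := phi_conn F f _ h2 }⟩

theorem geoStmt : GeoStmt T := geoStmt_of fun _ _ e => exists_ret e

/-- The cyclic cube construction exists. -/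
theorem cycStmt : CycStmt T := cycStmt_of geoStmt

end Vale.Agent.P236G
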