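import Vale.Agent.P236Z.Cat.Cube
import Vale.Agent.P236Z.Tr.Cells

/-!
# P236, block ORD: the low skeleta of the cyclic cube construction (interface)

`Orb A t`: the one- and two-skeleton `D1`, `D2` of the homotopy orbits of an action `t` of the
group of order three on `A`.  `Cyc3 f e p`: these skeleta for the third powers of the objects of
`X ⟶ Y ⟶ C ⟶ Z`, a retraction for `Y`, and the comparison `Φ` of the cone of `D2 f` with `D2 C`.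
`CycStmt`: the structure exists for the cofibre sequence of a map from a finite object to the unit.
-/

open CategoryTheory MonoidalCategory Limits Pretriangulated
open Vale.Agent.P251.T Vale.Agent.P251.I Vale.Agent.P236Z.Cat

universe v u

namespace Vale.Agent.P236G

variable {T : Type u} [Category.{v} T] [Preadditive T] [HasZeroObject T] [HasShift T ℤ]
  [∀ n : ℤ, (shiftFunctor T n).Additive] [Pretriangulated T]

/-- The skeleta of dimension one and two of the homotopy orbits of `t : A ⟶ A`. -/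
structure Orb (A : T) (t : A ⟶ A) where
  /-- the one-skeleton -/
  D1 : T
  /-- the two-skeleton -/
  D2 : T
  /-- the inclusion of the fibre -/
  i1 : A ⟶ D1
  /-- the collapse onto the one-cell -/
  j1 : D1 ⟶ A⟦(1 : ℤ)⟧
  /-- the attaching map of the one-cell -/
  d1 : A⟦(1 : ℤ)⟧ ⟶ A⟦(1 : ℤ)⟧
  /-- the attaching map of the two-cell -/
  bd : A⟦(1 : ℤ)⟧ ⟶ D1
  /-- the inclusion of the one-skeleton -/
  i2 : D1 ⟶ D2
  /-- the collapse onto the two-cell -/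
  j2 : D2 ⟶ A⟦(1 : ℤ)⟧⟦(1 : ℤ)⟧
  /-- the comparison of the boundary with the norm -/
  ε : A⟦(1 : ℤ)⟧ ⟶ A⟦(1 : ℤ)⟧
  tr1 : Triangle.mk i1 j1 d1 ∈ distTriang T
  tr2 : Triangle.mk bd i2 j2 ∈ distTriang T
  rot : t ≫ i1 = i1
  nrm : bd ≫ j1 = (𝟙 A + t + t ≫ t)⟦(1 : ℤ)⟧' ≫ ε

/-- A map of skeleta over `g`. -/
structure Orb.Map {A A' : T} {t : A ⟶ A} {t' : A' ⟶ A'} (P : Orb A t) (P' : Orb A' t')
    (g : A ⟶ A') where
  /-- the map of one-skeleta -/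
  m1 : P.D1 ⟶ P'.D1
  /-- the map of two-skeleta -/
  m2 : P.D2 ⟶ P'.D2
  i1 : P.i1 ≫ m1 = g ≫ P'.i1
  j1 : m1 ≫ P'.j1 = P.j1 ≫ g⟦(1 : ℤ)⟧'
  d1 : g⟦(1 : ℤ)⟧' ≫ P'.d1 = P.d1 ≫ g⟦(1 : ℤ)⟧'
  bd : P.bd ≫ m1 = g⟦(1 : ℤ)⟧' ≫ P'.bd
  i2 : P.i2 ≫ m2 = m1 ≫ P'.i2
  j2 : m2 ≫ P'.j2 = P.j2 ≫ g⟦(1 : ℤ)⟧'⟦(1 : ℤ)⟧'

variable [MonoidalCategory T] [SymmetricCategory T]

/-- The cyclic cube construction on a sequence `X ⟶ Y ⟶ C ⟶ Z`. -/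
structure Cyc3 {X Y C Z : T} (f : X ⟶ Y) (e : Y ⟶ C) (p : C ⟶ Z) where
  /-- the skeleta for `X` -/
  PX : Orb (X ⊗ X ⊗ X) (rot X X X)
  /-- the skeleta for `Y` -/
  PY : Orb (Y ⊗ Y ⊗ Y) (rot Y Y Y)
  /-- the skeleta for `C` -/
  PC : Orb (C ⊗ C ⊗ C) (rot C C C)
  /-- the skeleta for `Z` -/
  PZ : Orb (Z ⊗ Z ⊗ Z) (rot Z Z Z)
  /-- the map induced by `f` -/
  mf : PX.Map PY (f ⊗ₘ f ⊗ₘ f)
  /-- the map induced by `e` -/
  me : PY.Map PC (e ⊗ₘ e ⊗ₘ e)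
  /-- the map induced by `p` -/
  mp : PC.Map PZ (p ⊗ₘ p ⊗ₘ p)
  /-- the retraction -/
  r : PY.D2 ⟶ Y ⊗ Y ⊗ Y
  ret : PY.i1 ≫ PY.i2 ≫ r = 𝟙 _
  /-- the cone of the map induced by `f` -/
  C' : T
  /-- the inclusion in the cone -/
  e' : PY.D2 ⟶ C'
  /-- the collapse of the cone -/
  p' : C' ⟶ PX.D2⟦(1 : ℤ)⟧
  tr : Triangle.mk mf.m2 e' p' ∈ distTriang T
  /-- the comparison map -/
  Φ : C' ⟶ PC.D2
  eΦ : e' ≫ Φ = me.m2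
  /-- the identification of the top cell -/
  θ : (X ⊗ X ⊗ X)⟦(1 : ℤ)⟧⟦(1 : ℤ)⟧⟦(1 : ℤ)⟧ ≅ Z ⊗ Z ⊗ Z
  Φp : Φ ≫ mp.m2 = p' ≫ PX.j2⟦(1 : ℤ)⟧' ≫ θ.hom ≫ PZ.i1 ≫ PZ.i2

variable (T) in
/-- The cyclic cube construction exists for maps from finite objects to the unit. -/
def CycStmt [TensorTriangulated T] : Prop :=
  ∀ (_ : SpaceFunctor T) (D : ℤ → Prop) (Q C : T) (_ : P236Z.Tr.Cell D Q) (g : Q ⟶ 𝟙_ T)
    (e : 𝟙_ T ⟶ C) (p : C ⟶ Q⟦(1 : ℤ)⟧), Triangle.mk g e p ∈ distTriang T →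
      Nonempty (Cyc3 g e p)

end Vale.Agent.P236G
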