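import Vale.Agent.P236Z.Top.GeoSp
import Vale.Agent.P236Z.Top.GeoN
import Vale.Agent.P251.G.Gauge
import Mathlib.Analysis.SpecialFunctions.Sigmoid

/-!
# P236, block ORD: the interval, the circle and the disc
-/

open CategoryTheory MonoidalCategory Limits OnePoint Set Filter Real Topology
open Vale.Agent.P251 Vale.Agent.P251.G Vale.Agent.P251.G.LC Vale.Agent.P251.Q
open Vale.Agent.P236Z.Cat Vale.Agent.P236Z.Cat.Gs
open scoped ComplexConjugate

noncomputable section

namespace Vale.Agent.P236G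

/-- a morphism out of a compact space -/
def ofCpt {X Y : LC} [CompactSpace X] (f : X → OnePoint Y) (hf : Continuous f) : X ⟶ Y :=
  mk' f hf (by rw [cocompact_eq_bot]; exact tendsto_bot)

/-- a family of morphisms indexed by a finite set -/
def fam {A B : LC} {K : Type} [Fintype K] [TopologicalSpace K] [DiscreteTopology K]
    (g : K → (A ⟶ B)) : A ⊗ LC.of K ⟶ B :=
  lift₂ (X := A) (Y := LC.of K) (fun p => p.2.elim ∞ fun k => app (g k) p.1)
    (continuous_prod_of_discrete_right.2 fun k => by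
      induction k using OnePoint.rec with
      | infty => exact continuous_const
      | coe k => exact continuous_app (g k))
    (fun k => by
      induction k using OnePoint.rec with
      | infty => rfl
      | coe k => exact app_infty (g k))
    (fun _ => rfl)

theorem app_fam {A B : LC} {K : Type} [Fintype K] [TopologicalSpace K] [DiscreteTopology K]
    (g : K → (A ⟶ B)) (a : OnePoint A) (k : K) :
    app (fam g) (smash a (k : OnePoint K)) = app (g k) a :=
  app_lift₂_smash (X := A) (Y := LC.of K) _ _ _ _ a k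

theorem ext_of_surj {P D Z : LC} {q : P ⟶ D} (hq : Function.Surjective (app q)) {f g : D ⟶ Z}
    (h : q ≫ f = q ≫ g) : f = g :=
  hom_ext' fun d => by
    obtain ⟨p, rfl⟩ := hq d
    exact congrArg (app · p) h

theorem surj_whiskerRight {P D : LC} {q : P ⟶ D} (hq : Function.Surjective (app q)) (X : LC) :
    Function.Surjective (app (q ▷ X)) := fun y => by
  obtain ⟨d, x, rfl⟩ := exists_smash y
  obtain ⟨p, rfl⟩ := hq d
  exact ⟨smash p x, app_whiskerRight_smash q X p x⟩

/-- the cofibre sequence of a pushout -/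
theorem cofSeq_push {A B C D U : LC} {i : A ⟶ B} {f : A ⟶ C} {g : B ⟶ D} {j : C ⟶ D}
    {q : B ⟶ U} (h : CofSeq i q) (P : IsPushout i f g j) {q' : D ⟶ U} (h1 : g ≫ q' = q)
    (h2 : j ≫ q' = 0) : CofSeq j q' := by
  refine ⟨h.cofib.pushout P, IsPushout.of_top ?_ (h2.trans zero_comp.symm) P⟩
  rw [h1, comp_zero]
  exact h.isPushout

/-! ### The interval -/

theorem sigmoid_emb : IsOpenEmbedding unitInterval.sigmoid :=
  ⟨unitInterval.sigmoid_strictMono.isEmbedding_of_ordConnected
    (unitInterval.range_sigmoid ▸ ordConnected_Ioo),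
    unitInterval.range_sigmoid ▸ isOpen_Ioo⟩

/-- the collapse of the interval onto its interior -/
def colI : II ⟶ RR := ofOpen (X := II) (Y := RR) unitInterval.sigmoid sigmoid_emb

theorem cof_jE : CofSeq jE colI := by
  refine CofSeq.of_closed_open (Y := II) (Z := DD) (V := RR) _ ends_emb _ sigmoid_emb ?_ cofib_jE
  rw [range_ends, unitInterval.range_sigmoid, ← eq_compl_iff_isCompl]
  ext y
  simp only [mem_ofPred_eq, mem_compl_iff, mem_Ioo, not_and_or, not_lt]
  exact or_congr ⟨fun h => h.le, fun h => le_antisymm h y.2.1⟩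
    ⟨fun h => h.ge, fun h => le_antisymm y.2.2 h⟩

/-! ### The circle -/

theorem hz3 : z3 = Circle.exp (2 * π / (3 : ℕ)) := by
  rw [z3, z9, ← Circle.exp_add, ← Circle.exp_add]
  congr 1
  push_cast
  ring

/-- the first arc -/
def ea (t : unitInterval) : Circle := Circle.exp (2 * π / (3 : ℕ) * t)

theorem ea_zero : ea 0 = 1 := by simp [ea]

theorem ea_one : ea 1 = z3 := by simp [ea, hz3]

theorem continuous_ea : Continuous ea := by unfold ea; fun_prop

theorem PA : IsPushout (OO 3 ◁ jE) (glu 3) (arc 3 z3) (orb 3 z3) := isPushout_arc hz3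

theorem exists_arc (c : Circle) : ∃ (k : Fin 3) (t : unitInterval), c = z3 ^ (k : ℕ) * ea t := by
  rcases surj_of_isPushout (injective_whiskerLeft _ cofib_jE.injective') PA c with
    ⟨b, hb⟩ | ⟨b, hb⟩
  · induction b using OnePoint.rec with
    | infty => exact absurd ((app_infty _).symm.trans hb) (infty_ne_coe _)
    | coe b => exact ⟨b.1, b.2, (OnePoint.coe_injective hb).symm⟩
  · induction b using OnePoint.rec with
    | infty => exact absurd ((app_infty _).symm.trans hb) (infty_ne_coe _)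
    | coe b => exact ⟨b.1, 0, by rw [ea_zero, mul_one]; exact (OnePoint.coe_injective hb).symm⟩

/-- the collapse of one of the intervals -/
def uI (k : Fin 3) : OO 3 ⊗ II ⟶ RR :=
  (β_ _ _).hom ≫ fam fun l : Fin 3 => if l = k then colI else 0

theorem app_uI (k l : Fin 3) (t : OnePoint unitInterval) :
    app (uI k) (smash (l : OnePoint (Fin 3)) t) = if l = k then app colI t else ∞ := by
  rw [uI, app_comp]
  erw [app_braiding_smash, app_fam]
  split_ifs <;> rfl

theorem jE_uI (k : Fin 3) : OO 3 ◁ jE ≫ uI k = glu 3 ≫ 0 := by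
  refine tensor_ext fun l p => ?_
  rw [app_comp, app_whiskerLeft_smash, app_uI, comp_zero, app_zero, ← app_comp, cof_jE.w]
  exact ite_self _

/-- the collapse of the circle onto an open arc -/
def cA (k : Fin 3) : CI ⟶ RR := PA.desc (uI k) 0 (jE_uI k)

theorem app_cA (k l : Fin 3) (t : unitInterval) :
    app (cA k) ((z3 ^ (l : ℕ) * ea t : Circle) : OnePoint Circle) =
      if l = k then app colI (t : OnePoint unitInterval) else ∞ :=
  (congrArg (fun m : OO 3 ⊗ II ⟶ RR =>
    app m (smash (l : OnePoint (Fin 3)) (t : OnePoint unitInterval)))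
    (PA.inl_desc (uI k) 0 (jE_uI k))).trans (app_uI k l t)

theorem rc_htpy : Homotopic (𝟙 CI) (rc z3) := by
  refine ⟨ofCompact (X := LC.of (Circle × unitInterval)) (Y := CI) (fun p => ea p.2 * p.1)
    ((continuous_ea.comp continuous_snd).mul continuous_fst), ?_, ?_⟩
  · exact hom_ext fun x => congrArg OnePoint.some (show ea 0 * x = x by rw [ea_zero, one_mul])
  · exact hom_ext fun x => congrArg OnePoint.some (show ea 1 * x = z3 * x by rw [ea_one])

theorem cA_succ (k : Fin 3) : Homotopic (cA (k + 1)) (cA k) := by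
  refine (Homotopic.of_eq (Category.id_comp _).symm).trans
    ((rc_htpy.comp_right _).trans (Homotopic.of_eq (hom_ext fun c => ?_)))
  obtain ⟨l, t, rfl⟩ := exists_arc c
  change app (cA (k + 1)) ((z3 * (z3 ^ (l : ℕ) * ea t) : Circle) : OnePoint Circle) = _
  rw [← mul_assoc, ← z_succ hz3, app_cA, app_cA]
  simp only [add_left_inj]

theorem cA_htpy (k : Fin 3) : Homotopic (cA k) (cA 0) := by
  fin_cases k
  exacts [Homotopic.refl _, cA_succ 0, (cA_succ 1).trans (cA_succ 0)]

/-! ### The disc -/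

/-- the closed disc -/
abbrev BB : LC := Ball ℂ

/-- the boundary circle -/
def bdry (c : Circle) : BB := ⟨c, mem_closedBall_zero_iff.2 (Circle.norm_coe c).le⟩

theorem bdry_emb : IsClosedEmbedding bdry :=
  (show Continuous bdry from Continuous.subtype_mk (by fun_prop) _).isClosedEmbedding
    fun _ _ h => Circle.ext (congrArg (fun b : BB => (b.1 : ℂ)) h)

theorem range_bdry : range bdry = {x : Metric.closedBall (0 : ℂ) 1 | ‖(x : ℂ)‖ = 1} := by
  ext x
  refine ⟨?_, fun h => ⟨⟨x, mem_sphere_zero_iff_norm.2 h⟩, rfl⟩⟩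
  rintro ⟨c, rfl⟩
  exact Circle.norm_coe c

/-- the inclusion of the boundary -/
def ιB : CI ⟶ BB := ofClosed (X := CI) (Y := BB) bdry bdry_emb

theorem cofib_ιB : Cofib ιB :=
  cofib_ofClosed (C := CI) (D := BB) _ _ (range_bdry ▸ pndr_sphere ℂ)

theorem norm_BB (b : BB) : ‖(b.1 : ℂ)‖ ≤ 1 := mem_closedBall_zero_iff.1 b.2

/-- the sections which move the zero section to infinity -/
def lam : BB × unitInterval → OnePoint ℂ :=
  ratio (fun p => (p.2 : ℝ) • conj (p.1.1 : ℂ)) fun p => 1 - p.2 * ‖(p.1.1 : ℂ)‖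

theorem continuous_lam : Continuous lam := by
  refine continuous_ratio (by fun_prop) (by fun_prop) fun p h h0 => ?_
  have h1 := congrArg norm h0
  rw [norm_smul, Complex.norm_conj, Real.norm_of_nonneg p.2.2.1, norm_zero] at h1
  linarith

theorem lam_zero (b : BB) : lam (b, 0) = ((0 : ℂ) : OnePoint ℂ) := by
  rw [lam, ratio_of_ne_zero (by simp)]
  simp

theorem lam_one_of_eq {b : BB} (h : ‖(b.1 : ℂ)‖ = 1) : lam (b, 1) = ∞ :=
  ratio_of_eq_zero (by simp [h])

theorem lam_one_of_ne {b : BB} (h : ‖(b.1 : ℂ)‖ ≠ 1) :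
    lam (b, 1) = (((1 - ‖(b.1 : ℂ)‖)⁻¹ • conj (b.1 : ℂ) : ℂ) : OnePoint ℂ) := by
  rw [lam, ratio_of_ne_zero (by simpa [sub_eq_zero] using h.symm)]
  simp

theorem lam_rot (c : Circle) (s : unitInterval) :
    app (rotF z3).hom (lam (bdry (z3 * c), s)) = lam (bdry c, s) := by
  have h1 : ∀ d : Circle, ‖((bdry d).1 : ℂ)‖ = 1 := Circle.norm_coe
  by_cases h : 1 - (s : ℝ) = 0
  · rw [lam, ratio_of_eq_zero (by simpa [h1] using h), ratio_of_eq_zero (by simpa [h1] using h)]
    exact app_infty _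
  · rw [lam, ratio_of_ne_zero (by simpa [h1] using h), ratio_of_ne_zero (by simpa [h1] using h)]
    refine congrArg OnePoint.some ?_
    change (z3 : ℂ) * (_ • _ • conj ((z3 * c : Circle) : ℂ)) = _ • _ • conj (c : ℂ)
    simp only [h1, Circle.coe_mul, map_mul, GeoN.z_conj, Complex.real_smul]
    linear_combination ((1 - s * 1 : ℝ)⁻¹ : ℝ) * (s : ℝ) * conj (c : ℂ) * GeoN.z_cube

/-- the collapse of the disc onto its interior -/
def cB : BB ⟶ LC.of ℂ :=
  ofCpt (X := BB) (Y := LC.of ℂ) (fun b => lam (b, 1))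
    (continuous_lam.comp (continuous_id.prodMk continuous_const))

theorem cof_ιB : CofSeq ιB cB := by
  have h0 : ∀ x, x ∈ (range (app ιB))ᶜ ↔ ∃ b : BB, x = b ∧ ‖(b.1 : ℂ)‖ ≠ 1 := fun x => by
    rw [ιB, range_ofClosed, range_bdry]
    simp [ptd]
  have h1 : ∀ y, y ∈ (range (app (0 : LC.of Empty ⟶ LC.of ℂ)))ᶜ ↔ y ≠ ∞ := fun y =>
    not_congr ⟨fun ⟨_, h⟩ => h.symm, fun h => ⟨∞, h.symm⟩⟩
  refine ⟨cofib_ιB, isPushout_of (hom_ext fun c => lam_one_of_eq (Circle.norm_coe c))
    (fun x y _ => (eq_infty_empty x).trans (eq_infty_empty y).symm) ⟨?_, ?_, ?_⟩⟩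
  · intro x hx
    obtain ⟨b, rfl, hb⟩ := (h0 x).1 hx
    exact (h1 _).2 fun h => coe_ne_infty _ ((lam_one_of_ne hb).symm.trans h)
  · intro x hx y hy h
    obtain ⟨b, rfl, hb⟩ := (h0 x).1 hx
    obtain ⟨c, rfl, hc⟩ := (h0 y).1 hy
    have h2 := OnePoint.coe_injective
      ((lam_one_of_ne hb).symm.trans (h.trans (lam_one_of_ne hc)))
    have hb' : 0 < 1 - ‖(b.1 : ℂ)‖ := sub_pos.2 ((norm_BB b).lt_of_ne hb)
    have hc' : 0 < 1 - ‖(c.1 : ℂ)‖ := sub_pos.2 ((norm_BB c).lt_of_ne hc)
    have h3 := congrArg norm h2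
    rw [norm_smul, norm_smul, Complex.norm_conj, Complex.norm_conj,
      Real.norm_of_nonneg (inv_pos.2 hb').le, Real.norm_of_nonneg (inv_pos.2 hc').le] at h3
    have h4 : ‖(b.1 : ℂ)‖ = ‖(c.1 : ℂ)‖ := by
      field_simp at h3
      linarith
    rw [h4] at h2
    exact congrArg _ (Subtype.ext ((starRingEnd ℂ).injective
      (smul_right_injective ℂ (inv_pos.2 hc').ne' h2)))
  · intro y hy
    induction y using OnePoint.rec with
    | infty => exact absurd rfl ((h1 _).1 hy)
    | coe w =>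
      have hw : 0 < 1 + ‖w‖ := by positivity
      have h2 : ‖(1 + ‖w‖)⁻¹ • conj w‖ = 1 - (1 + ‖w‖)⁻¹ := by
        rw [norm_smul, Complex.norm_conj, Real.norm_of_nonneg (inv_pos.2 hw).le]
        field_simp
        ring
      have h3 : ‖(1 + ‖w‖)⁻¹ • conj w‖ < 1 := by rw [h2]; linarith [inv_pos.2 hw]
      refine ⟨((⟨_, mem_closedBall_zero_iff.2 h3.le⟩ : BB) : OnePoint BB),
        (h0 _).2 ⟨_, rfl, h3.ne⟩, (lam_one_of_ne h3.ne).trans (congrArg _ ?_)⟩
      change (1 - ‖(1 + ‖w‖)⁻¹ • conj w‖)⁻¹ • conj ((1 + ‖w‖)⁻¹ • conj w) = w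
      rw [h2, sub_sub_cancel, inv_inv, Complex.real_smul, Complex.real_smul, map_mul,
        Complex.conj_conj, Complex.conj_ofReal, ← mul_assoc, ← Complex.ofReal_mul,
        mul_inv_cancel₀ hw.ne', Complex.ofReal_one, one_mul]

end Vale.Agent.P236G
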