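import Vale.Agent.P236G.Cyc
import Vale.Agent.P251.I.CofTriangle

/-!
# P236, block ORD: the geometric form of the cyclic cube construction (interface)

`Cyc`: the fields of `Cyc3` for arbitrary objects with actions.  `GeoStmt`: the structure exists
for the suspension spectra of the third powers of the spaces of a mapping cone sequence whose
middle term is a complex vector space.
-/

open CategoryTheory MonoidalCategory Limits Pretriangulated
open Vale.Agent.P251.T Vale.Agent.P251.I Vale.Agent.P251.G Vale.Agent.P236Z.Cat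

universe v u

namespace Vale.Agent.P236G

variable {T : Type u} [Category.{v} T] [Preadditive T] [HasZeroObject T] [HasShift T ℤ]
  [∀ n : ℤ, (shiftFunctor T n).Additive] [Pretriangulated T]

/-- The fields of `Cyc3` for arbitrary objects with actions. -/
structure Cyc {X Y C Z : T} (tX : X ⟶ X) (tY : Y ⟶ Y) (tC : C ⟶ C) (tZ : Z ⟶ Z)
    (f : X ⟶ Y) (e : Y ⟶ C) (p : C ⟶ Z) where
  /-- the skeleta for `X` -/
  PX : Orb X tX
  /-- the skeleta for `Y` -/
  PY : Orb Y tY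
  /-- the skeleta for `C` -/
  PC : Orb C tC
  /-- the skeleta for `Z` -/
  PZ : Orb Z tZ
  /-- the map induced by `f` -/
  mf : PX.Map PY f
  /-- the map induced by `e` -/
  me : PY.Map PC e
  /-- the map induced by `p` -/
  mp : PC.Map PZ p
  /-- the retraction -/
  r : PY.D2 ⟶ Y
  ret : PY.i1 ≫ PY.i2 ≫ r = 𝟙 _
  /-- the cone of the map induced by `f` -/
  C' : T
  /-- the inclusion in the cone -/
  e' : PY.D2 ⟶ C'
  /-- the collapse of the cone -/
  p' : C' ⟶ PX.D2⟦(1 : ℤ)⟧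
  tr : Triangle.mk mf.m2 e' p' ∈ distTriang T
  /-- the comparison map -/
  Φ : C' ⟶ PC.D2
  eΦ : e' ≫ Φ = me.m2
  /-- the identification of the top cell -/
  θ : X⟦(1 : ℤ)⟧⟦(1 : ℤ)⟧⟦(1 : ℤ)⟧ ≅ Z
  Φp : Φ ≫ mp.m2 = p' ≫ PX.j2⟦(1 : ℤ)⟧' ≫ θ.hom ≫ PZ.i1 ≫ PZ.i2

variable [MonoidalCategory T] [SymmetricCategory T]

variable (T) in
/-- The geometric statement. -/
def GeoStmt [TensorTriangulated T] : Prop :=
  ∀ (F : SpaceFunctor T) (X Y : FCat) (f : X ⟶ Y) (n : ℕ) (_ : Y.obj ≅ LC.of (Fin n → ℂ)),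
    Nonempty (Cyc (F.S.map (rot X X X)) (F.S.map (rot Y Y Y))
      (F.S.map (rot (coneF f) (coneF f) (coneF f)))
      (F.S.map (rot (X ⊗ RRF) (X ⊗ RRF) (X ⊗ RRF))) (F.S.map (f ⊗ₘ f ⊗ₘ f))
      (F.S.map (coneInrF f ⊗ₘ coneInrF f ⊗ₘ coneInrF f))
      (F.S.map (coneConnF f ⊗ₘ coneConnF f ⊗ₘ coneConnF f)))

end Vale.Agent.P236G
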