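import Vale.Agent.P236G.Disc

/-!
# P236, block ORD: the skeleta of the homotopy orbits of a space

For `τ : A ⟶ A` of order three, `D1` is the mapping torus of `τ`, `cov : A ⊗ S¹ ⟶ D1` the threefold
covering, and `D2` is obtained by attaching `A ⊗ D²` along `cov`.
-/

open CategoryTheory MonoidalCategory Limits OnePoint Set Filter Real Topology
open Vale.Agent.P251 Vale.Agent.P251.G Vale.Agent.P251.G.LC Vale.Agent.P251.Q
open Vale.Agent.P236Z.Cat Vale.Agent.P236Z.Cat.Gs

noncomputable section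

namespace Vale.Agent.P236G

/-- a space with an action of the group of order three -/
structure Ac where
  /-- the space -/
  A : LC
  /-- the action of the generator -/
  τ : A ⟶ A
  ord : τ ≫ τ ≫ τ = 𝟙 A

namespace Ac

/-- the third power of a space with the cyclic permutation -/
abbrev cube (M : LC) : Ac := ⟨M ⊗ M ⊗ M, rot M M M, rot_rot_rot M M M⟩

variable (P : Ac)

/-- the powers of the generator -/
def pw : ℕ → (P.A ⟶ P.A)
  | 0 => 𝟙 _
  | n + 1 => pw n ≫ P.τ

theorem pw_succ (k : Fin 3) : P.pw ((k + 1 : Fin 3) : ℕ) = P.pw k ≫ P.τ := by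
  fin_cases k
  · rfl
  · rfl
  · change 𝟙 _ = ((𝟙 _ ≫ P.τ) ≫ P.τ) ≫ P.τ
    rw [Category.id_comp, Category.assoc, P.ord]

theorem pw_succ' (n : ℕ) : P.pw (n + 1) = P.τ ≫ P.pw n := by
  induction n with
  | zero => exact (Category.id_comp _).trans (Category.comp_id _).symm
  | succ n ih => rw [pw, pw, ← Category.assoc, ← ih, pw]

/-- the gluing map of the mapping torus -/
def gl : P.A ⊗ DD ⟶ P.A :=
  (fam (K := Fin 2 × Unit) fun p => if p.1 = 0 then 𝟙 _ else P.τ :)

theorem app_gl (a : OnePoint P.A) (p : Fin 2 × Unit) :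
    app P.gl (smash a (p : OnePoint (Fin 2 × Unit))) = app (if p.1 = 0 then 𝟙 _ else P.τ) a :=
  app_fam _ a p

theorem inj1 : Function.Injective (app (P.A ◁ jE)) :=
  injective_whiskerLeft _ cofib_jE.injective'

/-- the mapping torus -/
def D1 : LC := (exists_pushout _ P.gl P.inj1).choose

/-- the cylinder -/
def q1 : P.A ⊗ II ⟶ P.D1 := (exists_pushout _ P.gl P.inj1).choose_spec.choose

/-- the fibre -/
def i1 : P.A ⟶ P.D1 := (exists_pushout _ P.gl P.inj1).choose_spec.choose_spec.choose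

theorem P1 : IsPushout (P.A ◁ jE) P.gl P.q1 P.i1 :=
  (exists_pushout _ P.gl P.inj1).choose_spec.choose_spec.choose_spec.1

theorem q1_ends (a : OnePoint P.A) (p : Fin 2 × Unit) :
    app P.q1 (smash a (ends p : OnePoint unitInterval)) =
      app P.i1 (app (if p.1 = 0 then 𝟙 _ else P.τ) a) := by
  have h := congrArg (fun m : P.A ⊗ DD ⟶ P.D1 => app m (smash a (p : OnePoint (Fin 2 × Unit))))
    P.P1.w
  simp only [app_comp] at h
  erw [app_whiskerLeft_smash, app_gl] at h
  exact h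

theorem q1_zero (a : OnePoint P.A) :
    app P.q1 (smash a ((0 : unitInterval) : OnePoint unitInterval)) = app P.i1 a :=
  P.q1_ends a (0, ())

theorem q1_one (a : OnePoint P.A) :
    app P.q1 (smash a ((1 : unitInterval) : OnePoint unitInterval)) = app P.i1 (app P.τ a) :=
  P.q1_ends a (1, ())

theorem rot_i1 : Homotopic P.i1 (P.τ ≫ P.i1) :=
  ⟨P.q1, hom_ext' fun a => by rw [app_comp, app_incl, q1_zero],
    hom_ext' fun a => by rw [app_comp, app_incl, q1_one, app_comp]⟩

theorem surj_q1 : Function.Surjective (app P.q1) := fun d => by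
  rcases surj_of_isPushout P.inj1 P.P1 d with h | ⟨a, rfl⟩
  exacts [h, ⟨_, P.q1_zero a⟩]

/-- the descent of a map from the cylinder -/
theorem w1 {Z : LC} (X : LC) (u : (P.A ⊗ II) ⊗ X ⟶ Z) (v : P.A ⊗ X ⟶ Z)
    (h0 : ∀ (a : OnePoint P.A) (x : OnePoint X),
      app u (smash (smash a ((0 : unitInterval) : OnePoint unitInterval)) x) = app v (smash a x))
    (h1 : ∀ (a : OnePoint P.A) (x : OnePoint X),
      app u (smash (smash a ((1 : unitInterval) : OnePoint unitInterval)) x) =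
        app v (smash (app P.τ a) x)) : (P.A ◁ jE) ▷ X ≫ u = P.gl ▷ X ≫ v := by
  refine tensor_ext₃ fun a p x => ?_
  rw [app_comp, app_comp, app_whiskerRight_smash, app_whiskerRight_smash, app_whiskerLeft_smash]
  erw [app_gl]
  obtain ⟨p, ⟨⟩⟩ := p
  fin_cases p
  exacts [h0 a x, h1 a x]

/-- the collapse onto the open cell -/
def c1 : P.D1 ⟶ P.A ⊗ RR := P.P1.desc (P.A ◁ colI) 0 (by
  rw [← MonoidalCategory.whiskerLeft_comp, cof_jE.w, comp_zero]
  exact tensor_ext fun a p => by rw [app_whiskerLeft_smash, app_zero, smash_infty_right]; rfl)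

theorem q1_c1 : P.q1 ≫ P.c1 = P.A ◁ colI := P.P1.inl_desc _ _ _

theorem cof1 : CofSeq P.i1 P.c1 :=
  cofSeq_push (cof_jE.whiskerLeft P.A) P.P1 P.q1_c1 (P.P1.inr_desc _ _ _)

theorem PAA : IsPushout (P.A ◁ (OO 3 ◁ jE)) (P.A ◁ glu 3) (P.A ◁ arc 3 z3) (P.A ◁ orb 3 z3) :=
  isPushout_whiskerLeft _ (injective_whiskerLeft _ cofib_jE.injective') PA

/-- the covering on the arcs -/
def covA : P.A ⊗ OO 3 ⊗ II ⟶ P.D1 :=
  (α_ _ _ _).inv ≫ fam (fun k : Fin 3 => P.pw k) ▷ II ≫ P.q1

theorem app_covA (a : OnePoint P.A) (k : Fin 3) (t : OnePoint unitInterval) :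
    app P.covA (smash a (smash (k : OnePoint (Fin 3)) t)) = app P.q1 (smash (app (P.pw k) a) t) := by
  rw [covA, app_comp, app_comp]
  erw [app_associator_inv_smash, app_whiskerRight_smash, app_fam]

theorem w_cov : P.A ◁ (OO 3 ◁ jE) ≫ P.covA =
    P.A ◁ glu 3 ≫ (fam (K := Fin 3 × Unit) fun p => P.pw p.1 ≫ P.i1 :) := by
  refine tensor_ext fun a ⟨k, p⟩ => ?_
  rw [app_comp, app_comp, app_whiskerLeft_smash, app_whiskerLeft_smash]
  refine ((P.app_covA a k (ends p)).trans (P.q1_ends _ p)).trans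
    (Eq.trans ?_ (app_fam _ _ ((if p.1 = 0 then k else k + 1, ()) : Fin 3 × Unit)).symm)
  split_ifs
  · rfl
  · rw [pw_succ]; rfl

/-- the threefold covering -/
def cov : P.A ⊗ CI ⟶ P.D1 := P.PAA.desc P.covA _ P.w_cov

theorem app_cov (a : OnePoint P.A) (k : Fin 3) (t : unitInterval) :
    app P.cov (smash a ((z3 ^ (k : ℕ) * ea t : Circle) : OnePoint Circle)) =
      app P.q1 (smash (app (P.pw k) a) (t : OnePoint unitInterval)) := by
  have h := congrArg (fun m : P.A ⊗ OO 3 ⊗ II ⟶ P.D1 =>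
    app m (smash a (smash (k : OnePoint (Fin 3)) (t : OnePoint unitInterval))))
    (P.PAA.inl_desc P.covA _ P.w_cov)
  simp only [app_comp] at h
  rw [app_whiskerLeft_smash, app_covA] at h
  exact h

theorem app_cov_zero (a : OnePoint P.A) (t : unitInterval) :
    app P.cov (smash a ((ea t : Circle) : OnePoint Circle)) =
      app P.q1 (smash a (t : OnePoint unitInterval)) := by
  have h := P.app_cov a 0 t
  rwa [Fin.val_zero, pow_zero, one_mul] at h

theorem surj_cov : Function.Surjective (app P.cov) := fun d => by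
  obtain ⟨y, rfl⟩ := P.surj_q1 d
  obtain ⟨a, t, rfl⟩ := smash_coe_surjective y
  exact ⟨_, P.app_cov_zero a t⟩

theorem cov_rot (a : OnePoint P.A) (c : Circle) :
    app P.cov (smash a ((z3 * c : Circle) : OnePoint Circle)) =
      app P.cov (smash (app P.τ a) (c : OnePoint Circle)) := by
  obtain ⟨k, t, rfl⟩ := exists_arc c
  rw [← mul_assoc, ← z_succ hz3, app_cov, app_cov, pw_succ, ← pw, pw_succ', app_comp]

theorem inj2 : Function.Injective (app (P.A ◁ ιB)) :=
  injective_whiskerLeft _ cofib_ιB.injective'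

/-- the two-skeleton -/
def D2 : LC := (exists_pushout _ P.cov P.inj2).choose

/-- the characteristic map of the two-cell -/
def q2 : P.A ⊗ BB ⟶ P.D2 := (exists_pushout _ P.cov P.inj2).choose_spec.choose

/-- the inclusion of the one-skeleton -/
def i2 : P.D1 ⟶ P.D2 := (exists_pushout _ P.cov P.inj2).choose_spec.choose_spec.choose

theorem P2 : IsPushout (P.A ◁ ιB) P.cov P.q2 P.i2 :=
  (exists_pushout _ P.cov P.inj2).choose_spec.choose_spec.choose_spec.1

theorem q2_bdry (a : OnePoint P.A) (c : Circle) :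
    app P.q2 (smash a (bdry c : OnePoint BB)) =
      app P.i2 (app P.cov (smash a (c : OnePoint Circle))) := by
  have h := congrArg (fun m : P.A ⊗ CI ⟶ P.D2 => app m (smash a (c : OnePoint Circle))) P.P2.w
  simp only [app_comp] at h
  rw [app_whiskerLeft_smash] at h
  exact h

theorem q2_rot (a : OnePoint P.A) (c : Circle) :
    app P.q2 (smash a (bdry (z3 * c) : OnePoint BB)) =
      app P.q2 (smash (app P.τ a) (bdry c : OnePoint BB)) := by
  rw [q2_bdry, q2_bdry, cov_rot]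

theorem q2_one (a : OnePoint P.A) :
    app P.q2 (smash a (bdry 1 : OnePoint BB)) = app (P.i1 ≫ P.i2) a := by
  rw [q2_bdry, ← ea_zero, app_cov_zero, q1_zero, app_comp]

theorem surj_q2 : Function.Surjective (app P.q2) := fun d => by
  rcases surj_of_isPushout P.inj2 P.P2 d with h | ⟨y, rfl⟩
  · exact h
  · obtain ⟨y, rfl⟩ := P.surj_cov y
    obtain ⟨a, c, rfl⟩ := smash_coe_surjective y
    exact ⟨_, P.q2_bdry a c⟩

/-- the collapse onto the open two-cell -/
def c2 : P.D2 ⟶ P.A ⊗ LC.of ℂ := P.P2.desc (P.A ◁ cB) 0 (by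
  rw [← MonoidalCategory.whiskerLeft_comp, cof_ιB.w, comp_zero]
  exact tensor_ext fun a p => by rw [app_whiskerLeft_smash, app_zero, smash_infty_right]; rfl)

theorem q2_c2 : P.q2 ≫ P.c2 = P.A ◁ cB := P.P2.inl_desc _ _ _

theorem cof2 : CofSeq P.i2 P.c2 :=
  cofSeq_push (cof_ιB.whiskerLeft P.A) P.P2 P.q2_c2 (P.P2.inr_desc _ _ _)

/-- the universal property of the two-skeleton -/
theorem exists_desc {X Z : LC} (G : (P.A ⊗ BB) ⊗ X ⟶ Z)
    (hG : ∀ (a : OnePoint P.A) (c : Circle) (x : OnePoint X),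
      app G (smash (smash a (bdry (z3 * c) : OnePoint BB)) x) =
        app G (smash (smash (app P.τ a) (bdry c : OnePoint BB)) x)) :
    ∃ G' : P.D2 ⊗ X ⟶ Z, P.q2 ▷ X ≫ G' = G := by
  let e : II ⟶ BB := ofCompact (X := II) (Y := BB) (fun t => bdry (ea t))
    (bdry_emb.continuous.comp continuous_ea)
  have he : ∀ (a : OnePoint P.A) (t : unitInterval) (x : OnePoint X),
      app ((P.A ◁ e) ▷ X ≫ G) (smash (smash a (t : OnePoint unitInterval)) x) =
        app G (smash (smash a (bdry (ea t) : OnePoint BB)) x) := fun a t x => by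
    rw [app_comp, app_whiskerRight_smash, app_whiskerLeft_smash]; rfl
  have h0 : ∀ (a : OnePoint P.A) (x : OnePoint X),
      app (incl 0 P.A ▷ X ≫ (P.A ◁ e) ▷ X ≫ G) (smash a x) =
        app G (smash (smash a (bdry 1 : OnePoint BB)) x) := fun a x => by
    rw [app_comp, app_whiskerRight_smash, app_incl, he, ea_zero]
  have w := P.w1 X ((P.A ◁ e) ▷ X ≫ G) (incl 0 P.A ▷ X ≫ (P.A ◁ e) ▷ X ≫ G)
    (fun a x => by rw [he, h0, ea_zero]) (fun a x => by rw [he, h0, ← hG, ea_one, mul_one])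
  have Q1 := isPushout_whiskerRight X P.inj1 P.P1
  have hk : ∀ (k : ℕ) (a : OnePoint P.A) (c : Circle) (x : OnePoint X),
      app G (smash (smash a (bdry (z3 ^ k * c) : OnePoint BB)) x) =
        app G (smash (smash (app (P.pw k) a) (bdry c : OnePoint BB)) x) := fun k => by
    induction k with
    | zero => intro a c x; rw [pow_zero, one_mul]; rfl
    | succ k ih => intro a c x; rw [pow_succ', mul_assoc, hG, ih, pw_succ', app_comp]
  refine ⟨(isPushout_whiskerRight X P.inj2 P.P2).desc G (Q1.desc _ _ w) ?_,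
    IsPushout.inl_desc _ _ _ _⟩
  refine tensor_ext₃ fun a c x => ?_
  obtain ⟨k, t, rfl⟩ := exists_arc c
  rw [app_comp, app_comp, app_whiskerRight_smash, app_whiskerRight_smash, app_whiskerLeft_smash,
    app_cov, ← app_whiskerRight_smash, ← app_comp, Q1.inl_desc, he, ← hk]
  rfl

theorem exists_desc' {Z : LC} (G : P.A ⊗ BB ⟶ Z)
    (hG : ∀ (a : OnePoint P.A) (c : Circle), app G (smash a (bdry (z3 * c) : OnePoint BB)) =
      app G (smash (app P.τ a) (bdry c : OnePoint BB))) : ∃ G' : P.D2 ⟶ Z, P.q2 ≫ G' = G := by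
  obtain ⟨G', h⟩ := P.exists_desc ((ρ_ _).hom ≫ G) fun a c x => by
    induction x using OnePoint.rec with
    | infty => rw [smash_infty_right, smash_infty_right]
    | coe x =>
      rw [app_comp, app_comp]
      erw [app_rightUnitor_smash, app_rightUnitor_smash, hG]
  exact ⟨(ρ_ _).inv ≫ G', by rw [rightUnitor_inv_naturality_assoc, h, Iso.inv_hom_id_assoc]⟩

/-! ### Equivariant maps -/

variable {P} {P' : Ac} (g : P.A ⟶ P'.A) (hg : P.τ ≫ g = g ≫ P'.τ)

include hg

theorem app_comm (a : OnePoint P.A) : app g (app P.τ a) = app P'.τ (app g a) :=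
  congrArg (app · a) hg

theorem pw_comm (n : ℕ) : P.pw n ≫ g = g ≫ P'.pw n := by
  induction n with
  | zero => exact (Category.id_comp _).trans (Category.comp_id _).symm
  | succ n ih => rw [pw, pw, Category.assoc, hg, reassoc_of% ih]

theorem w_m1 : P.A ◁ jE ≫ g ▷ II ≫ P'.q1 = P.gl ≫ g ≫ P'.i1 := by
  refine tensor_ext fun a p => ?_
  simp only [app_comp]
  rw [app_whiskerLeft_smash, app_whiskerRight_smash]
  erw [app_gl]
  refine (P'.q1_ends _ p).trans ?_
  split_ifs
  · rfl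
  · rw [app_comm g hg]

/-- the map of one-skeleta -/
def m1 : P.D1 ⟶ P'.D1 := P.P1.desc _ _ (w_m1 g hg)

theorem q1_m1 : P.q1 ≫ m1 g hg = g ▷ II ≫ P'.q1 := P.P1.inl_desc _ _ _

theorem i1_m1 : P.i1 ≫ m1 g hg = g ≫ P'.i1 := P.P1.inr_desc _ _ _

theorem cov_m1 : P.cov ≫ m1 g hg = g ▷ CI ≫ P'.cov := by
  refine tensor_ext fun a c => ?_
  obtain ⟨k, t, rfl⟩ := exists_arc c
  rw [app_comp, app_comp, app_whiskerRight_smash, app_cov, app_cov, ← app_comp, q1_m1, app_comp,
    app_whiskerRight_smash, ← app_comp, pw_comm g hg, app_comp]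

theorem m1_c1 : m1 g hg ≫ P'.c1 = P.c1 ≫ g ▷ RR :=
  ext_of_surj P.surj_q1 (by
    rw [reassoc_of% q1_m1 g hg, q1_c1, reassoc_of% P.q1_c1, whisker_exchange])

/-- the map of two-skeleta -/
def m2 : P.D2 ⟶ P'.D2 := P.P2.desc (g ▷ BB ≫ P'.q2) (m1 g hg ≫ P'.i2) (by
  rw [whisker_exchange_assoc, P'.P2.w, reassoc_of% cov_m1 g hg])

theorem q2_m2 : P.q2 ≫ m2 g hg = g ▷ BB ≫ P'.q2 := P.P2.inl_desc _ _ _

theorem i2_m2 : P.i2 ≫ m2 g hg = m1 g hg ≫ P'.i2 := P.P2.inr_desc _ _ _

theorem m2_c2 : m2 g hg ≫ P'.c2 = P.c2 ≫ g ▷ LC.of ℂ :=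
  ext_of_surj P.surj_q2 (by
    rw [reassoc_of% q2_m2 g hg, q2_c2, reassoc_of% P.q2_c2, whisker_exchange])

end Ac

end Vale.Agent.P236G
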