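import Vale.Agent.P236G.Sp
import Vale.Agent.P236G.Geo
import Vale.Agent.P257.H104.DSum

/-!
# P236, block ORD: the triangles of the skeleta of homotopy orbits
-/

open CategoryTheory MonoidalCategory Limits Pretriangulated OnePoint
open Vale.Agent.P251 Vale.Agent.P251.T Vale.Agent.P251.G Vale.Agent.P251.G.LC Vale.Agent.P251.Q
  Vale.Agent.P251.I Vale.Agent.P251.M
open Vale.Agent.P236Z.Cat Vale.Agent.P236Z.Cat.Gs

noncomputable section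

universe v u

namespace Vale.Agent.P236G

/-- the circle -/
abbrev CIF : FCat := ⟨CI, fcCI hz3⟩

/-- the disc -/
abbrev BBF : FCat := ⟨BB, FC.of_ext cofib_ιB (fcCI hz3) cof_ιB.iso fcCC⟩

/-- the plane -/
def eCR : CCF ≅ RRF ⊗ RRF :=
  FCP.isoMk (ofHomeo (X := LC.of ℂ) (Y := LC.of (ℝ × ℝ)) Complex.equivRealProdCLM.toHomeomorph)

variable {T : Type u} [Category.{v} T] [Preadditive T] [HasZeroObject T] [HasShift T ℤ]
  [∀ n : ℤ, (shiftFunctor T n).Additive] [Pretriangulated T] [MonoidalCategory T]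
  [SymmetricCategory T] [TensorTriangulated T] (F : SpaceFunctor T)

section cof

variable {A B C A' B' C' : FCat} {i : A ⟶ B} {q : B ⟶ C} {i' : A' ⟶ B'} {q' : B' ⟶ C'}

/-- the connecting map of a cofibre sequence -/
def bdT (h : CofSeq i.hom q.hom) : F.S.obj C ⟶ (F.S.obj A)⟦(1 : ℤ)⟧ :=
  F.S.map (FCat.hom h.bd : C ⟶ A ⊗ RRF) ≫ (F.suspIso A).hom

theorem bdT_dist (h : CofSeq i.hom q.hom) :
    Triangle.mk (F.S.map i) (F.S.map q) (bdT F h) ∈ distTriang T := by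
  let k : coneF i ⟶ C := FCat.hom (coneToCof i.hom ≫ h.iso.hom)
  have := F.isIso_map k ((isHEquiv_coneToCof h.cofib).comp (isHEquiv_of_iso _))
  refine dist_of_iso₃ (F.cone_distinguished i) (asIso (F.S.map k)) ?_ ?_
  · rw [asIso_hom, ← Functor.map_comp]
    congr 1
    ext1
    change coneInr i.hom ≫ coneToCof i.hom ≫ h.iso.hom = q.hom
    rw [coneInr_coneToCof_assoc, h.cofMap_iso]
  · rw [asIso_hom, bdT, ← Functor.map_comp_assoc, SpaceFunctor.coneδ]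
    congr 1
    exact F.map_eq _ _ ((Homotopic.of_eq (Category.assoc _ _ _)).trans h.coneToCof_bd)

theorem bdT_nat (h : CofSeq i.hom q.hom) (h' : CofSeq i'.hom q'.hom) (a : A ⟶ A') (b : B ⟶ B')
    (c : C ⟶ C') (hab : i.hom ≫ b.hom = a.hom ≫ i'.hom) (hbc : q.hom ≫ c.hom = b.hom ≫ q'.hom) :
    F.S.map c ≫ bdT F h' = bdT F h ≫ (F.S.map a)⟦(1 : ℤ)⟧' := by
  rw [bdT, bdT, Category.assoc, ← F.suspIso_naturality, ← Functor.map_comp_assoc,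
    ← Functor.map_comp_assoc]
  congr 1
  exact F.map_eq _ _ (h.bd_naturality h' a.hom b.hom c.hom hab hbc)

end cof

/-- the double suspension -/
def susp2 (A : FCat) : F.S.obj (A ⊗ CCF) ≅ (F.S.obj A)⟦(1 : ℤ)⟧⟦(1 : ℤ)⟧ :=
  F.S.mapIso (whiskerLeftIso A eCR ≪≫ (α_ A RRF RRF).symm) ≪≫ F.suspIso (A ⊗ RRF) ≪≫
    (shiftFunctor T (1 : ℤ)).mapIso (F.suspIso A)

@[reassoc]
theorem susp2_nat {A B : FCat} (g : A ⟶ B) : F.S.map (g ▷ CCF) ≫ (susp2 F B).hom =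
    (susp2 F A).hom ≫ (F.S.map g)⟦(1 : ℤ)⟧'⟦(1 : ℤ)⟧' := by
  simp only [susp2, Iso.trans_hom, Functor.mapIso_hom, whiskerLeftIso_hom, Iso.symm_hom,
    Category.assoc]
  rw [← Functor.map_comp (shiftFunctor T (1 : ℤ)), ← F.suspIso_naturality,
    Functor.map_comp (shiftFunctor T (1 : ℤ)), ← F.suspIso_naturality_assoc,
    ← Functor.map_comp_assoc, ← Functor.map_comp_assoc, ← whisker_exchange_assoc,
    associator_inv_naturality_left, Category.assoc]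

@[reassoc]
theorem susp2_inv_nat {A B : FCat} (g : A ⟶ B) : (susp2 F A).inv ≫ F.S.map (g ▷ CCF) =
    (F.S.map g)⟦(1 : ℤ)⟧'⟦(1 : ℤ)⟧' ≫ (susp2 F B).inv := by
  rw [Iso.inv_comp_eq, ← susp2_nat_assoc, Iso.hom_inv_id, Category.comp_id]

/-- a finite cell space with an action of the group of order three -/
structure AcF where
  /-- the space -/
  A : FCat
  /-- the action of the generator -/
  τ : A ⟶ A
  ord : τ ≫ τ ≫ τ = 𝟙 A

namespace AcF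

variable (P : AcF)

/-- the underlying action -/
abbrev ac : Ac := ⟨P.A.obj, P.τ.hom, congrArg (·.hom) P.ord⟩

/-- the one-skeleton -/
abbrev D1 : FCat :=
  ⟨P.ac.D1, FC.of_ext P.ac.cof1.cofib P.A.property P.ac.cof1.iso (P.A ⊗ RRF).property⟩

/-- the two-skeleton -/
abbrev D2 : FCat :=
  ⟨P.ac.D2, FC.of_ext P.ac.cof2.cofib P.D1.property P.ac.cof2.iso (P.A ⊗ CCF).property⟩

/-- the fibre -/
abbrev i1 : P.A ⟶ P.D1 := FCat.hom P.ac.i1

/-- the collapse onto the one-cell -/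
abbrev c1 : P.D1 ⟶ P.A ⊗ RRF := FCat.hom P.ac.c1

/-- the inclusion of the one-skeleton -/
abbrev i2 : P.D1 ⟶ P.D2 := FCat.hom P.ac.i2

/-- the collapse onto the two-cell -/
abbrev c2 : P.D2 ⟶ P.A ⊗ CCF := FCat.hom P.ac.c2

/-- the covering -/
abbrev cov : P.A ⊗ CIF ⟶ P.D1 := FCat.hom P.ac.cov

/-- the powers of the generator -/
abbrev pw (k : ℕ) : P.A ⟶ P.A := FCat.hom (P.ac.pw k)

theorem cof1 : CofSeq P.i1.hom P.c1.hom := P.ac.cof1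

theorem cof2 : CofSeq P.i2.hom P.c2.hom := P.ac.cof2

theorem cof0 : CofSeq (P.A ◁ (FCat.hom ιB : CIF ⟶ BBF)).hom
    (P.A ◁ (FCat.hom cB : BBF ⟶ CCF)).hom := cof_ιB.whiskerLeft P.A.obj

theorem map_cov_c1 : F.S.map (P.cov ≫ P.c1) =
    ∑ k : Fin 3, F.S.map (P.pw k ▷ CIF) ≫ F.S.map (P.A ◁ (FCat.hom (cA 0) : CIF ⟶ RRF)) := by
  have hg : ∀ (m k : Fin 3) (a : OnePoint P.A.obj) (t : unitInterval),
      app (P.pw m ⊗ₘ (FCat.hom (cA m) : CIF ⟶ RRF)).hom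
        (smash a ((z3 ^ (k : ℕ) * ea t : Circle) : OnePoint Circle)) =
      smash (app (P.ac.pw m) a) (if k = m then app colI (t : OnePoint unitInterval) else ∞) :=
    fun m k a t => (app_tensorHom_smash (P.ac.pw m) (cA m) a _).trans (by rw [app_cA])
  have hf : ∀ (k : Fin 3) (a : OnePoint P.A.obj) (t : unitInterval),
      app (P.cov ≫ P.c1).hom (smash a ((z3 ^ (k : ℕ) * ea t : Circle) : OnePoint Circle)) =
      smash (app (P.ac.pw k) a) (app colI (t : OnePoint unitInterval)) := fun k a t => by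
    change app P.ac.c1 (app P.ac.cov _) = _
    rw [P.ac.app_cov, ← app_comp, P.ac.q1_c1, app_whiskerLeft_smash]
  have hne : ∀ (m k : Fin 3) (a : OnePoint P.A.obj) (t : unitInterval), k ≠ m →
      app (P.pw m ⊗ₘ (FCat.hom (cA m) : CIF ⟶ RRF)).hom
        (smash a ((z3 ^ (k : ℕ) * ea t : Circle) : OnePoint Circle)) = ∞ :=
    fun m k a t h => by rw [hg, if_neg h, smash_infty_right]
  rw [P257.H104.map_eq_sum F Finset.univ
    (fun m : Fin 3 => P.pw m ⊗ₘ (FCat.hom (cA m) : CIF ⟶ RRF)) ?_ _ ?_]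
  · refine Finset.sum_congr rfl fun m _ => ?_
    rw [← Functor.map_comp]
    exact F.map_eq _ _ ((Homotopic.of_eq (tensorHom_def (P.ac.pw m) (cA m))).trans
      (((cA_htpy m).whiskerLeft _).comp_left _))
  · intro y m _ m' _ h h'
    obtain ⟨a, c, rfl⟩ := smash_coe_surjective y
    obtain ⟨k, t, rfl⟩ := exists_arc c
    exact (not_not.1 fun e => h (hne m k a t e)).symm.trans (not_not.1 fun e => h' (hne m' k a t e))
  · intro y
    obtain ⟨a, c, rfl⟩ := smash_coe_surjective y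
    obtain ⟨k, t, rfl⟩ := exists_arc c
    have h1 := (hf k a t).trans ((hg k k a t).trans (by rw [if_pos rfl])).symm
    by_cases h : app (P.pw k ⊗ₘ (FCat.hom (cA k) : CIF ⟶ RRF)).hom
      (smash a ((z3 ^ (k : ℕ) * ea t : Circle) : OnePoint Circle)) = ∞
    · refine Or.inr ⟨h1.trans h, fun m _ => ?_⟩
      by_cases e : k = m
      exacts [e ▸ h, hne m k a t e]
    · exact Or.inl ⟨k, Finset.mem_univ _, h1, h⟩

/-- the connecting map of the two-cell -/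
def δ2 : (F.S.obj P.A)⟦(1 : ℤ)⟧⟦(1 : ℤ)⟧ ⟶ (F.S.obj P.D1)⟦(1 : ℤ)⟧ :=
  (susp2 F P.A).inv ≫ bdT F P.cof2

theorem δ2_c1 : P.δ2 F ≫ (F.S.map P.c1)⟦(1 : ℤ)⟧' =
    (𝟙 _ + F.S.map P.τ + F.S.map P.τ ≫ F.S.map P.τ)⟦(1 : ℤ)⟧'⟦(1 : ℤ)⟧' ≫ (susp2 F P.A).inv ≫
      bdT F P.cof0 ≫ (F.S.map (P.A ◁ (FCat.hom (cA 0) : CIF ⟶ RRF)))⟦(1 : ℤ)⟧' := by
  have h1 := bdT_nat F P.cof0 P.cof2 P.cov (FCat.hom P.ac.q2) (𝟙 _) P.ac.P2.w
    ((Category.comp_id _).trans P.ac.q2_c2.symm)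
  rw [F.S.map_id, Category.id_comp] at h1
  have h2 : ∀ k : ℕ, (susp2 F P.A).inv ≫ bdT F P.cof0 ≫ (F.S.map (P.pw k ▷ CIF))⟦(1 : ℤ)⟧' =
      (F.S.map (P.pw k))⟦(1 : ℤ)⟧'⟦(1 : ℤ)⟧' ≫ (susp2 F P.A).inv ≫ bdT F P.cof0 := fun k => by
    rw [← bdT_nat F P.cof0 P.cof0 (P.pw k ▷ CIF) (P.pw k ▷ BBF) (P.pw k ▷ CCF)
      (whisker_exchange (P.ac.pw k) ιB) (whisker_exchange (P.ac.pw k) cB), susp2_inv_nat_assoc]
  have e0 : P.pw ((0 : Fin 3) : ℕ) = 𝟙 _ := rfl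
  have e1 : P.pw ((1 : Fin 3) : ℕ) = P.τ := ObjectProperty.hom_ext _ (Category.id_comp _)
  have e2 : P.pw ((2 : Fin 3) : ℕ) = P.τ ≫ P.τ :=
    ObjectProperty.hom_ext _ (congrArg (· ≫ P.τ.hom) (Category.id_comp _))
  rw [δ2, h1, Category.assoc, Category.assoc, ← Functor.map_comp, ← Functor.map_comp, map_cov_c1,
    Fin.sum_univ_three, ← F.S.map_id, ← F.S.map_comp P.τ, ← e2, ← e1, ← e0]
  simp only [Functor.map_add, Functor.map_comp, Preadditive.comp_add, Preadditive.add_comp,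
    reassoc_of% h2]

/-- the skeleta of the homotopy orbits -/
def orb : Orb (F.S.obj P.A) (F.S.map P.τ) where
  D1 := F.S.obj P.D1
  D2 := F.S.obj P.D2
  i1 := F.S.map P.i1
  j1 := F.S.map P.c1 ≫ (F.suspIso P.A).hom
  d1 := (F.suspIso P.A).inv ≫ bdT F P.cof1
  bd := (shiftFunctor T (1 : ℤ)).preimage (-P.δ2 F)
  i2 := F.S.map P.i2
  j2 := F.S.map P.c2 ≫ (susp2 F P.A).hom
  ε := (shiftFunctor T (1 : ℤ)).preimage (-(susp2 F P.A).inv ≫ bdT F P.cof0 ≫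
    (F.S.map (P.A ◁ (FCat.hom (cA 0) : CIF ⟶ RRF)))⟦(1 : ℤ)⟧' ≫ (F.suspIso P.A).hom⟦(1 : ℤ)⟧')
  tr1 := dist_of_iso₃ (bdT_dist F P.cof1) (F.suspIso P.A) rfl (Iso.hom_inv_id_assoc _ _)
  tr2 := (rotate_distinguished_triangle _).2 (dist_of_iso₃ (bdT_dist F P.cof2) (susp2 F P.A) rfl (by
    change _ ≫ (-((shiftFunctor T (1 : ℤ)).preimage (-P.δ2 F))⟦(1 : ℤ)⟧') = _
    rw [Functor.map_preimage, neg_neg, δ2, Iso.hom_inv_id_assoc]))
  rot := (F.S.map_comp _ _).symm.trans (F.map_eq _ _ P.ac.rot_i1.symm)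
  nrm := (shiftFunctor T (1 : ℤ)).map_injective (by
    rw [Functor.map_comp, Functor.map_comp, Functor.map_comp, Functor.map_preimage,
      Functor.map_preimage, Preadditive.neg_comp, reassoc_of% P.δ2_c1 F, Preadditive.comp_neg])

variable {P} {P' : AcF} (g : P.A ⟶ P'.A) (hg : P.τ ≫ g = g ≫ P'.τ)

/-- the map of one-skeleta -/
abbrev m1 : P.D1 ⟶ P'.D1 := FCat.hom (Ac.m1 (P := P.ac) (P' := P'.ac) g.hom (congrArg (·.hom) hg))

/-- the map of two-skeleta -/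
abbrev m2 : P.D2 ⟶ P'.D2 := FCat.hom (Ac.m2 (P := P.ac) (P' := P'.ac) g.hom (congrArg (·.hom) hg))

theorem map_sq {A B C D : FCat} {a : A ⟶ B} {b : B ⟶ D} {c : A ⟶ C} {d : C ⟶ D}
    (h : a.hom ≫ b.hom = c.hom ≫ d.hom) : F.S.map a ≫ F.S.map b = F.S.map c ≫ F.S.map d := by
  rw [← F.S.map_comp, ← F.S.map_comp]
  exact congrArg _ (ObjectProperty.hom_ext _ h)

theorem i1_m1 : P.i1.hom ≫ (m1 g hg).hom = g.hom ≫ P'.i1.hom :=
  Ac.i1_m1 (P := P.ac) (P' := P'.ac) g.hom (congrArg (·.hom) hg)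

theorem i2_m2 : P.i2.hom ≫ (m2 g hg).hom = (m1 g hg).hom ≫ P'.i2.hom :=
  Ac.i2_m2 (P := P.ac) (P' := P'.ac) g.hom (congrArg (·.hom) hg)

theorem m1_c1 : (m1 g hg).hom ≫ P'.c1.hom = P.c1.hom ≫ (g ▷ RRF).hom :=
  Ac.m1_c1 (P := P.ac) (P' := P'.ac) g.hom (congrArg (·.hom) hg)

theorem m2_c2 : (m2 g hg).hom ≫ P'.c2.hom = P.c2.hom ≫ (g ▷ CCF).hom :=
  Ac.m2_c2 (P := P.ac) (P' := P'.ac) g.hom (congrArg (·.hom) hg)

theorem map_j1 : F.S.map (m1 g hg) ≫ F.S.map P'.c1 ≫ (F.suspIso P'.A).hom =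
    (F.S.map P.c1 ≫ (F.suspIso P.A).hom) ≫ (F.S.map g)⟦(1 : ℤ)⟧' := by
  rw [Category.assoc, ← F.suspIso_naturality, reassoc_of% map_sq F (m1_c1 g hg)]

include hg in
theorem map_d1 : (F.S.map g)⟦(1 : ℤ)⟧' ≫ (F.suspIso P'.A).inv ≫ bdT F P'.cof1 =
    ((F.suspIso P.A).inv ≫ bdT F P.cof1) ≫ (F.S.map g)⟦(1 : ℤ)⟧' := by
  rw [Category.assoc, ← bdT_nat F P.cof1 P'.cof1 g (m1 g hg) (g ▷ RRF) (i1_m1 g hg)
    (m1_c1 g hg).symm, Iso.eq_inv_comp, ← F.suspIso_naturality_assoc, Iso.hom_inv_id_assoc]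

theorem map_bd : (shiftFunctor T (1 : ℤ)).preimage (-P.δ2 F) ≫ F.S.map (m1 g hg) =
    (F.S.map g)⟦(1 : ℤ)⟧' ≫ (shiftFunctor T (1 : ℤ)).preimage (-P'.δ2 F) :=
  (shiftFunctor T (1 : ℤ)).map_injective (by
    rw [Functor.map_comp, Functor.map_comp, Functor.map_preimage, Functor.map_preimage,
      Preadditive.neg_comp, Preadditive.comp_neg, δ2, δ2, Category.assoc,
      ← bdT_nat F P.cof2 P'.cof2 (m1 g hg) (m2 g hg) (g ▷ CCF) (i2_m2 g hg) (m2_c2 g hg).symm,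
      susp2_inv_nat_assoc])

theorem map_j2 : F.S.map (m2 g hg) ≫ F.S.map P'.c2 ≫ (susp2 F P'.A).hom =
    (F.S.map P.c2 ≫ (susp2 F P.A).hom) ≫ (F.S.map g)⟦(1 : ℤ)⟧'⟦(1 : ℤ)⟧' := by
  rw [Category.assoc, ← susp2_nat, reassoc_of% map_sq F (m2_c2 g hg)]

/-- the map of skeleta -/
def orbMap : (P.orb F).Map (P'.orb F) (F.S.map g) where
  m1 := F.S.map (m1 g hg)
  m2 := F.S.map (m2 g hg)
  i1 := map_sq F (i1_m1 g hg)
  j1 := map_j1 F g hg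
  d1 := map_d1 F g hg
  bd := map_bd F g hg
  i2 := map_sq F (i2_m2 g hg)
  j2 := map_j2 F g hg

end AcF

end Vale.Agent.P236G
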